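import Vale.Agent.P042.H892.LVInst
import Vale.Agent.P042.H860.Glue
import Vale.Agent.P042.H883.Frame

set_option autoImplicit false
set_option linter.unusedSectionVars false

/-!
The level inequality (LV) at one instance `H860.Inst` of the local part of the power version: the
rates `kwS`, the numbers `LVNum` for `𝓜 = {1}` and for large super-moduli, the costs of the upper
scales.
-/

namespace Vale.Agent.P042.H892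

open Finset Vale.Agent.P042 Vale.Agent.P042.H188
open Vale.Agent.P042.H121 (M2f mem_M2f)
open Vale.Agent.P042.H739 (Tst Wst)
open Vale.Agent.P042.H74 (GamN)
open Vale.Agent.P042.H860 (Inst Ok Si Typ lo mem_Typ)
open Vale.Agent.P042.H883 (JT snT ellT scT esN)

/-- tiny primes of an instance -/
lemma mem_Tst {K0 p : ℕ} : p ∈ Tst K0 ↔ p.Prime ∧ p ≤ K0 := by
  unfold Tst
  rw [mem_filter, mem_range]
  constructor
  · rintro ⟨h1, h2⟩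
    exact ⟨h2, by omega⟩
  · rintro ⟨h1, h2⟩
    exact ⟨by omega, h1⟩

/-- the prime of a site -/
abbrev prm {I : Inst} (i : Si I.K0 I.C1 I.P) : ℕ := i.1

section
variable {I : Inst} {κ : ℝ}

lemma prm_prime (i : Si I.K0 I.C1 I.P) : (prm i).Prime := (mem_Typ.1 i.2).2.1

lemma prm_inj : Function.Injective (prm : Si I.K0 I.C1 I.P → ℕ) := fun _ _ h => Subtype.ext h

lemma prm_gt (i : Si I.K0 I.C1 I.P) : I.K0 < prm i := (mem_Typ.1 i.2).2.2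

lemma prm_notMem (i : Si I.K0 I.C1 I.P) : prm i ∉ Tst I.K0 := fun h => by
  have h1 := (mem_Tst.1 h).2
  have h2 := prm_gt i
  omega

/-- lengths of the sites -/
lemma ell_prm (i : Si I.K0 I.C1 I.P) : Real.log (prm i) ≤ ellT (scT i : JT I.K0 I.C1 I.P) ∧
    ellT (scT i : JT I.K0 I.C1 I.P) ≤ Real.log (prm i) + Real.log 2 := by
  have h1 : 1 < prm i := (prm_prime i).one_lt
  have h2 := H883.log_le_esN h1.le
  have h3 := H883.esN_le_log h1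
  have h4 : ellT (scT i : JT I.K0 I.C1 I.P) = esN (prm i) := rfl
  rw [h4]
  exact ⟨h2, by linarith⟩

lemma one_le_ellT (h : Ok I κ) (j : JT I.K0 I.C1 I.P) : 1 ≤ ellT j := by
  have h1 : H883.nlo I.K0 ≤ j.1 := (mem_Icc.1 j.2).1
  have h2 : 2 ≤ H883.nlo I.K0 := H883.le_nlo (by
    have := h.K0k
    have := h.k2
    omega)
  have h3 : (2 : ℝ) ≤ j.1 := by exact_mod_cast h2.trans h1
  have h4 := Real.log_two_gt_d9
  unfold ellT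
  nlinarith

/-- the upper sites are large -/
lemma up_ge (hP : 1 ≤ I.P) {kap : ℝ} {i : Si I.K0 I.C1 I.P} (hi : ¬ lo I kap i) :
    (2 - kap) * Real.log I.P ≤ ellT (scT i : JT I.K0 I.C1 I.P) := by
  have h1 : ⌊I.P ^ (2 - kap)⌋₊ < prm i := by
    by_contra hcon
    refine hi ?_
    unfold H860.lo Wst
    rw [mem_filter, mem_range]
    exact ⟨Nat.lt_succ_of_le (not_lt.1 hcon), prm_prime i, prm_gt i⟩
  have hP0 : 0 < I.P := by linarith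
  have h2 : I.P ^ (2 - kap) < prm i := (Nat.floor_lt (Real.rpow_nonneg hP0.le _)).1 h1
  have h3 := Real.log_le_log (Real.rpow_pos_of_pos hP0 _) h2.le
  rw [Real.log_rpow hP0] at h3
  exact h3.trans (ell_prm i).1

/-- **the rates at an instance** -/
theorem kw_I (k R : ℕ) (hk : 2 ≤ k) (hR : 1 ≤ R) : ∃ (c : ℝ) (kp : ℕ → ℕ → ℝ) (K00 : ℕ),
    0 < c ∧ c ≤ 1 / 4 ∧ ∀ (I : Inst) (κ : ℝ), I.k = k → I.R = R → K00 ≤ I.K0 → Ok I κ →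
      H944.KwT k c (Tst I.K0) I.PP I.g (H74.kwS k (Tst I.K0) I.PP kp) := by
  obtain ⟨c, kp, K00, hc, hc1, _, h⟩ := H944.kwT k R hk hR
  refine ⟨c, kp, K00, hc, hc1, fun I κ hIk hIR hK hok => ?_⟩
  have h1 := h I.f (by rw [hok.deg, hIk]) hok.lead (by
    intro g hg
    rw [← hIR]
    exact hok.cont g hg) (Tst I.K0) (H74.Vp I.k I.R) I.q1 I.z0
    (fun p hp hpK => mem_Tst.2 ⟨hp, hpK.trans hK⟩) hok.tiny I.C1 I.P
  exact h1.1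

/-- a prime factor of a super-modulus is large -/
lemma big_prime {m : ℕ} (hm : (∀ p ∈ Tst I.K0, ¬ p ∣ m) ∧ ∀ i : Si I.K0 I.C1 I.P, ¬ prm i ∣ m)
    {p : ℕ} (hp : p.Prime) (hd : p ∣ m) : p ∉ Tst I.K0 ∧ ⌊I.P ^ I.C1⌋₊ + 1 ≤ p := by
  have h1 : p ∉ Tst I.K0 := fun h => hm.1 p h hd
  refine ⟨h1, ?_⟩
  by_contra hcon
  have h2 : I.K0 < p := by
    by_contra h
    exact h1 (mem_Tst.2 ⟨hp, by omega⟩)
  exact hm.2 ⟨p, mem_Typ.2 ⟨by omega, hp, h2⟩⟩ hd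

/-- the primes of the moduli -/
lemma PrF_facts {kap : ℝ} {M0 p : ℕ} (h : Ok I κ)
    (hp : p ∈ PrF (lo I kap) prm (Tst I.K0) (⌊I.P ^ I.C1⌋₊ + 1) M0) :
    p.Prime ∧ p ∉ Tst I.K0 ∧ I.K0 < p ∧ ¬ p ∣ I.q0 ∧
      (∀ i : Si I.K0 I.C1 I.P, lo I kap i → prm i ≠ p) ∧ p ≤ M0 := by
  unfold PrF at hp
  obtain ⟨h0, h1, h2, h3⟩ := mem_filter.1 hp
  rw [mem_range] at h0
  refine ⟨h1, h2, ?_, fun hd => h2 (h.tiny.mem_of_dvd_qnul h1 hd), ?_, by omega⟩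
  · by_contra hcon
    exact h2 (mem_Tst.2 ⟨h1, by omega⟩)
  · rintro i hi rfl
    rcases h3 with h4 | h4
    · obtain ⟨j, hj, hji⟩ := h4
      exact hj (prm_inj hji ▸ hi)
    · have h5 : prm i ≤ ⌊I.P ^ I.C1⌋₊ := (mem_Typ.1 i.2).1
      omega

end

/-- the class costs of the typed primes above the threshold -/
theorem ga_num {e ga : ℝ} (he : 0 < e) (hga : 0 < ga) : ∃ K00 : ℕ, ∀ p : ℕ, K00 ≤ p →
    (p : ℝ) ^ (-ga) ≤ e * Real.log p := by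
  have h1 : Filter.Tendsto (fun n : ℕ => e * Real.log (n : ℝ)) Filter.atTop Filter.atTop :=
    (Real.tendsto_log_atTop.comp tendsto_natCast_atTop_atTop).const_mul_atTop he
  obtain ⟨K, hK⟩ := Filter.eventually_atTop.mp (h1.eventually_ge_atTop 1)
  refine ⟨max K 1, fun p hp => ?_⟩
  have h2 := hK p ((le_max_left _ _).trans hp)
  have h3 : (1 : ℝ) ≤ p := by exact_mod_cast (le_max_right K 1).trans hp
  exact (Real.rpow_le_one_of_one_le_of_nonpos h3 (by linarith)).trans h2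

/-- **the costs of the upper scales at an instance** -/
theorem X_I (k : ℕ) {Γ : ℝ} (hΓ : 0 < Γ) : ∃ P0 : ℝ, 1 ≤ P0 ∧ ∀ (I : Inst), P0 ≤ I.P →
    ∀ {kap τ σ Θ : ℝ}, kap ≤ Γ → kap ≤ 1 → 0 ≤ Θ → Θ ≤ I.P → τ + σ ≤ Γ / 4 → τ + σ ≤ 1 / 2 →
    ∀ j, XU (lo I kap) (scT : Si I.K0 I.C1 I.P → JT I.K0 I.C1 I.P) k Θ τ σ ellT j
        ≤ Real.exp (Γ * ellT j) / 4 := by
  obtain ⟨P2, hP2, h2⟩ := XU_le k hΓ
  refine ⟨P2, hP2, ?_⟩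
  intro I hP kap τ σ Θ hkap hkap1 hΘ0 hΘ hτσ hτσ1
  exact h2 I.P hP hkap hkap1 hΘ0 hΘ hτσ hτσ1 (fun i hi => up_ge (hP2.trans hP) hi)

/-- **(LV) at an instance**: `LVNum` for `𝓜 = {1}` and for large super-moduli, and the costs of
the upper scales -/
theorem lv_I (k : ℕ) {c Γ : ℝ} (hc : 0 < c) (hc1 : c ≤ 1 / 4) (hΓ : 0 < Γ) : ∃ P0 : ℝ, 1 ≤ P0 ∧
    ∀ (I : Inst) {κ : ℝ}, P0 ≤ I.P → I.k = k → 4 ≤ I.C1 → Ok I κ → ∀ {kw : ℕ → ℕ → ℝ},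
    H944.KwT k c (Tst I.K0) I.PP I.g kw →
    ∀ {kap A τ Θ σ c4 : ℝ} {M M0 : ℕ} {r : JT I.K0 I.C1 I.P → ℝ}, (∀ j, 0 ≤ r j) →
    1 ≤ A → 0 ≤ τ → τ * g0c c ≤ 1 / 32 → 0 ≤ Θ → Θ ≤ I.P → 0 ≤ σ → σ * g0c c ≤ 1 / 32 →
    2 * Real.log A ≤ σ * Θ → 0 ≤ c4 → c4 * g0c c ≤ 1 / 16 →
    1 ≤ M0 → 4 * g0c c * Real.log M0 ≤ Θ → M0 * Real.exp (5 * Θ) ≤ M →
    kap ≤ Γ → kap ≤ 1 → τ + σ ≤ Γ / 4 →
    LVNum (tyU (lo I kap) prm) (PrF (lo I kap) prm (Tst I.K0) (⌊I.P ^ I.C1⌋₊ + 1) M0) kw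
        (RU (lo I kap) prm scT r) (tyO (lo I kap) prm scT) (ellO ellT)
        (XO (XU (lo I kap) (scT : Si I.K0 I.C1 I.P → JT I.K0 I.C1 I.P) k Θ τ σ ellT) r)
        (M2f (lo I kap) prm M0 {1}) (g0c c) (Nat.log 2 M0) (⌊I.P ^ I.C1⌋₊ + 1) M A τ Θ σ M0
        (I.P ^ (-(1 / 8) : ℝ)) c4 (1 / 32) 1 ∧
      (∀ (𝓜 : Finset ℕ), (∀ m ∈ 𝓜, 1 ≤ m ∧ (∀ p ∈ Tst I.K0, ¬ p ∣ m) ∧
          ∀ i : Si I.K0 I.C1 I.P, ¬ prm i ∣ m) → ∀ Z : ℝ, 1 ≤ Z → (∀ m ∈ 𝓜, Z < (m : ℝ)) →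
        LVNum (tyU (lo I kap) prm) (PrF (lo I kap) prm (Tst I.K0) (⌊I.P ^ I.C1⌋₊ + 1) M0) kw
          (RU (lo I kap) prm scT r) (tyO (lo I kap) prm scT) (ellO ellT)
          (XO (XU (lo I kap) (scT : Si I.K0 I.C1 I.P → JT I.K0 I.C1 I.P) k Θ τ σ ellT) r)
          (M2f (lo I kap) prm M0 𝓜) (g0c c) (Nat.log 2 M0) (⌊I.P ^ I.C1⌋₊ + 1) M A τ Θ σ M0
          (I.P ^ (-(1 / 8) : ℝ)) c4 (1 / 32) (I.P ^ (-(1 / 8) : ℝ) * Z ^ (-c4))) ∧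
      (∀ j, 0 ≤ XU (lo I kap) (scT : Si I.K0 I.C1 I.P → JT I.K0 I.C1 I.P) k Θ τ σ ellT j) ∧
      ∀ j, XU (lo I kap) (scT : Si I.K0 I.C1 I.P → JT I.K0 I.C1 I.P) k Θ τ σ ellT j
        ≤ Real.exp (Γ * ellT j) / 4 := by
  obtain ⟨P1, hP1, h1⟩ := lv_inst k hc hc1
  obtain ⟨P2, hP2, h2⟩ := XU_le k hΓ
  refine ⟨max P1 P2, hP1.trans (le_max_left _ _), ?_⟩
  intro I κ hP hIk hC1 hok kw hkw kap A τ Θ σ c4 M M0 r hr hA hτ0 hτ hΘ0 hΘ hσ0 hσ hσA hc40 hc4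
    hM0 hM0Θ hcap hkap hkap1 hτσ
  have hPa : P1 ≤ I.P := (le_max_left _ _).trans hP
  have hPb : P2 ≤ I.P := (le_max_right _ _).trans hP
  have hP1' : 1 ≤ I.P := hP1.trans hPa
  have hX0 : ∀ j, 0 ≤ XU (lo I kap) (scT : Si I.K0 I.C1 I.P → JT I.K0 I.C1 I.P) k Θ τ σ ellT j :=
    fun j => XU_nonneg hΘ0 j
  have hY : I.P ^ 4 ≤ ((⌊I.P ^ I.C1⌋₊ + 1 : ℕ) : ℝ) := by
    have h3 : I.P ^ (4 : ℕ) ≤ I.P ^ I.C1 := by
      rw [← Real.rpow_natCast]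
      exact Real.rpow_le_rpow_of_exponent_le hP1' (by exact_mod_cast hC1)
    have h4 := (Nat.lt_floor_add_one (I.P ^ I.C1)).le
    push_cast
    exact h3.trans h4
  have hmain := h1 I.P hPa (lo := lo I kap) (prm := prm)
    (ty := (scT : Si I.K0 I.C1 I.P → JT I.K0 I.C1 I.P)) (ell := ellT) (r := r)
    (X := XU (lo I kap) (scT : Si I.K0 I.C1 I.P → JT I.K0 I.C1 I.P) k Θ τ σ ellT)
    (T := Tst I.K0) (kw := kw) (Y := ⌊I.P ^ I.C1⌋₊ + 1) (M := M) (M0 := M0) (A := A) (τ := τ)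
    (Θ := Θ) (σ := σ) (c4 := c4)
    prm_prime prm_inj (fun i _ => prm_notMem i) (fun i _ => ell_prm i) (one_le_ellT hok) hr hX0
    (fun i hi => XU_ge hi) hkw.nn hkw.one hkw.pow hA hτ0 hτ hΘ0 hΘ hσ0 hσ hσA hc40 hc4 hY hM0
    hM0Θ hcap
  have hg1 : (1 : ℝ) ≤ g0c c := by
    have := g0c_64 hc hc1
    linarith
  refine ⟨hmain.1, ?_, hX0, ?_⟩
  · intro 𝓜 h𝓜 Z hZ hZm
    refine hmain.2 𝓜 Z hZ hZm ?_ ?_
    · intro m hm p hp hd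
      exact big_prime (h𝓜 m hm).2 hp hd
    · intro m hm i _
      exact (h𝓜 m hm).2.2 i
  · refine h2 I.P hPb hkap hkap1 hΘ0 hΘ hτσ ?_ (fun i hi => up_ge hP1' hi)
    nlinarith

end Vale.Agent.P042.H892
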