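import Vale.Agent.P042.H892.LVb
import Vale.Agent.P042.H188.HiSum
import Vale.Agent.P042.H944.UoPush

/-!
**(LV)**: the level inequality for the noisy weight `f * omc w red q T x` on a window, summed over
all top moduli `M2` with the radii of the typed primes and the gain `gn`
(`1` if there is no untyped prime, `δ Z ^ (-c4)` if the untyped part exceeds `Z`), power regime.
-/

namespace Vale.Agent.P042.H892

open Finset Vale.Agent.P042 Vale.Agent.P042.H188 Vale.Agent.P042.H944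
open Vale.Agent.P042.H461 (W)
open Vale.Agent.P042.TT.Loc (uo mask)

set_option linter.unusedSectionVars false

/-- the sum over the high parts for the modified weights -/
lemma hi_kwz {tyP : ℕ → Prop} [DecidablePred tyP] {Pr : Finset ℕ} {g0 : ℕ}
    (hPr : ∀ p ∈ Pr, p.Prime) {kw : ℕ → ℕ → ℝ} (hkw : ∀ p v, 0 ≤ kw p v) {R : ℕ → ℝ}
    (hR : ∀ p, 0 ≤ R p) {τ δ c4 : ℝ} (hδ : 0 < δ) {M2 : Finset ℕ}
    (hQ : ∀ q ∈ M2, ∀ p ∈ q.primeFactors, p ∈ Pr)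
    (hhi : ∀ p ∈ Pr, ¬ tyP p → ∀ v, g0 < v →
      δ⁻¹ * (((p ^ v : ℕ) : ℝ) ^ c4 * kw p v) * ((p ^ v : ℕ) : ℝ) ^ (2 * τ)
        ≤ 1 / (p : ℝ) ^ 2 * (1 / 2) ^ (v - g0)) :
    ∑ h ∈ M2.image (hi (gz tyP g0)), kapProd (kwz tyP R δ c4 kw) h * (h : ℝ) ^ (2 * τ) ≤ 3 := by
  have h1 := hi_sum Pr (gz tyP g0) (kwz tyP R δ c4 kw) τ M2 2 hPr
    (fun p v => kwz_nonneg hR hδ.le hkw p v) le_rfl (fun p hp => (hPr p hp).two_le) hQ ?_
  · have h2 : ∑ h ∈ M2.image (hi (gz tyP g0)), kapProd (kwz tyP R δ c4 kw) h * (h : ℝ) ^ (2 * τ)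
        ≤ kapProd (kwz tyP R δ c4 kw) 1 * ((1 : ℕ) : ℝ) ^ (2 * τ) +
          ∑ h ∈ (M2.image (hi (gz tyP g0))).erase 1,
            kapProd (kwz tyP R δ c4 kw) h * (h : ℝ) ^ (2 * τ) := by
      by_cases h3 : 1 ∈ M2.image (hi (gz tyP g0))
      · rw [← add_sum_erase _ _ h3]
      · rw [erase_eq_of_notMem h3]
        have : 0 ≤ kapProd (kwz tyP R δ c4 kw) 1 * ((1 : ℕ) : ℝ) ^ (2 * τ) := by
          refine mul_nonneg (prod_nonneg fun p _ => kwz_nonneg hR hδ.le hkw _ _) ?_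
          exact Real.rpow_nonneg (Nat.cast_nonneg _) _
        linarith
    have h3 : kapProd (kwz tyP R δ c4 kw) 1 * ((1 : ℕ) : ℝ) ^ (2 * τ) = 1 := by
      unfold kapProd
      simp
    rw [h3] at h2
    have h4 : (4 : ℝ) / ((2 : ℕ) : ℝ) = 2 := by norm_num
    rw [h4] at h1
    linarith
  · intro p hp v hv
    by_cases h : tyP p
    · have e1 : gz tyP g0 p = 1 := by unfold gz; rw [if_pos h]
      rw [e1] at hv ⊢
      have e2 : kwz tyP R δ c4 kw p v = 0 := by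
        unfold kwz
        rw [if_pos h, if_neg (by omega)]
      rw [e2, zero_mul]
      positivity
    · have e1 : gz tyP g0 p = g0 := by unfold gz; rw [if_neg h]
      rw [e1] at hv ⊢
      have e2 : kwz tyP R δ c4 kw p v = δ⁻¹ * (((p ^ v : ℕ) : ℝ) ^ c4 * kw p v) := by
        unfold kwz; rw [if_neg h]
      rw [e2]
      exact hhi p hp h v hv

section
variable {ι : Type} [Fintype ι] [DecidableEq ι] {V : ι → Type} [∀ i, Fintype (V i)]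
  [∀ i, DecidableEq (V i)] {w : ∀ i, V i → ℝ} {red : ℤ → ∀ i, V i}

/-- the energy of the noisy weight -/
lemma wE_eq {S : Finset ℤ} {f : ℤ → ℝ} (hw : ∀ n ∈ S, f n ≠ 0 → W w (red n) ≠ 0) (q : ι → ℝ)
    (T : Finset ι) (x : ∀ i, V i) (m2 : ℕ) :
    wE S (fun n => f n * omc w red q T x n) m2
      = ∑ a ∈ (range m2).filter (Nat.Coprime m2),
        (uo q w (pF w red S (fun n => f n * (zc a m2 n).re)) (mask T x) ^ 2 +
          uo q w (pF w red S (fun n => f n * (zc a m2 n).im)) (mask T x) ^ 2) := by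
  unfold wE
  refine sum_congr rfl fun a _ => ?_
  rw [uo_push q (fun n hn hf => hw n hn (left_ne_zero_of_mul hf)) T x,
    uo_push q (fun n hn hf => hw n hn (left_ne_zero_of_mul hf)) T x]
  have h1 : (∑ n ∈ S, ((f n * omc w red q T x n : ℝ) : ℂ) * e (-((n : ℝ) * ((a : ℝ) / m2)))).re
      = ∑ n ∈ S, f n * (zc a m2 n).re * omc w red q T x n := by
    rw [Complex.re_sum]
    refine sum_congr rfl fun n _ => ?_
    rw [Complex.re_ofReal_mul]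
    unfold zc
    ring
  have h2 : (∑ n ∈ S, ((f n * omc w red q T x n : ℝ) : ℂ) * e (-((n : ℝ) * ((a : ℝ) / m2)))).im
      = ∑ n ∈ S, f n * (zc a m2 n).im * omc w red q T x n := by
    rw [Complex.im_sum]
    refine sum_congr rfl fun n _ => ?_
    rw [Complex.im_ofReal_mul]
    unfold zc
    ring
  rw [← h1, ← h2, Complex.sq_norm, Complex.normSq_apply]
  ring

/-- the mass bound of the noisy weight from the noisy densities of the cells -/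
lemma MBw_of {S : Finset ℤ} {f : ℤ → ℝ} (hw : ∀ n ∈ S, f n ≠ 0 → W w (red n) ≠ 0) (q : ι → ℝ)
    (T : Finset ι) (x : ∀ i, V i) {d : ℕ} (hd : 1 ≤ d) {r : ℝ}
    (h : ∀ z : ℕ, z < d → uo q w (pF w red S
      (fun n => if n ≡ z [ZMOD (d : ℕ)] then (d : ℝ) * f n else 0)) (mask T x) ≤ r) :
    MBw S (fun n => f n * omc w red q T x n) d r := by
  intro z
  have hd0 : (0 : ℝ) < d := by exact_mod_cast hd
  have hdz : (d : ℤ) ≠ 0 := by exact_mod_cast (by omega : d ≠ 0)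
  obtain ⟨z', hz'⟩ : ∃ z' : ℕ, (z' : ℤ) = z % (d : ℤ) :=
    ⟨(z % (d : ℤ)).toNat, Int.toNat_of_nonneg (Int.emod_nonneg _ hdz)⟩
  have hzd : z' < d := by
    have := Int.emod_lt_of_pos z (by exact_mod_cast hd : (0 : ℤ) < d)
    rw [← hz'] at this
    exact_mod_cast this
  have hcong : ∀ n : ℤ, n ≡ z [ZMOD (d : ℕ)] ↔ n ≡ (z' : ℤ) [ZMOD (d : ℕ)] := by
    intro n
    rw [hz']
    have h1 : z % (d : ℤ) ≡ z [ZMOD (d : ℕ)] := Int.mod_modEq _ _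
    exact ⟨fun h2 => h2.trans h1.symm, fun h2 => h2.trans h1⟩
  have h1 := h z' hzd
  rw [uo_push q ?_ T x] at h1
  · have h2 : ∑ n ∈ S, (if n ≡ z' [ZMOD (d : ℕ)] then (d : ℝ) * f n else 0) * omc w red q T x n
        = d * ∑ n ∈ S.filter (fun n : ℤ => n ≡ z [ZMOD (d : ℕ)]), f n * omc w red q T x n := by
      rw [sum_filter, mul_sum]
      refine sum_congr rfl fun n _ => ?_
      by_cases h3 : n ≡ z' [ZMOD (d : ℕ)]
      · rw [if_pos h3, if_pos ((hcong n).mpr h3)]; ring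
      · rw [if_neg h3, if_neg fun h4 => h3 ((hcong n).mp h4)]; ring
    rw [h2] at h1
    rw [le_div_iff₀ hd0, mul_comm]
    exact h1
  · intro n hn hf
    refine hw n hn fun h3 => hf ?_
    split_ifs
    · rw [h3, mul_zero]
    · rfl

variable {J : Type*} [Fintype J] [DecidableEq J]

/-- the numbers of (LV) -/
structure LVNum (tyP : ℕ → Prop) [DecidablePred tyP] (Pr : Finset ℕ) (kw : ℕ → ℕ → ℝ)
    (R : ℕ → ℝ) (ty : ℕ → J) (ell X : J → ℝ) (M2 : Finset ℕ) (g0 N Y M : ℕ)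
    (A τ Θ σ M0 δ c4 s gn : ℝ) : Prop where
  prime : ∀ p ∈ Pr, p.Prime
  kw0 : ∀ p v, 0 ≤ kw p v
  R0 : ∀ p, 0 ≤ R p
  A1 : 1 ≤ A
  τ0 : 0 ≤ τ
  Θ0 : 0 ≤ Θ
  σ0 : 0 ≤ σ
  σA : 2 * Real.log A ≤ σ * Θ
  g2 : 2 ≤ g0
  δ0 : 0 < δ
  s0 : 0 < s
  gn0 : 0 ≤ gn
  Y1 : 1 ≤ Y
  ell1 : ∀ j, 1 ≤ ell j
  X0 : ∀ j, 0 ≤ X j
  logN : ∀ p ∈ Pr, Nat.log 2 p ≤ N
  Yp : ∀ p ∈ Pr, ¬ tyP p → Y ≤ p
  ellp : ∀ p ∈ Pr, tyP p → Real.log p ≤ ell (ty p)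
  M1 : 1 ≤ M
  Q : ∀ q ∈ M2, 1 ≤ q ∧ (∀ p ∈ q.primeFactors, p ∈ Pr) ∧
    2 * lng (ellz ell g0 N) (typ (scz tyP ty N) (lo (gz tyP g0) q)) ≤ Θ ∧
    (hi (gz tyP g0) q : ℝ) ≤ M0
  cap : M0 * Real.exp (5 * Θ) ≤ M
  typed : ∀ p ∈ Pr, tyP p →
    24 * Θ * (R p * kw p 1 * (p : ℝ) ^ τ) * Real.exp (σ * ell (ty p)) ≤ X (ty p)
  untyped : ∀ p ∈ Pr, ¬ tyP p → ∀ v, 1 ≤ v → v ≤ g0 →
    24 * Θ * (δ⁻¹ * (((p ^ v : ℕ) : ℝ) ^ c4 * kw p v) * ((p ^ g0 : ℕ) : ℝ) ^ τ) *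
      (2 * (p : ℝ)) ^ (σ * g0) ≤ (p : ℝ) ^ (-s)
  high : ∀ p ∈ Pr, ¬ tyP p → ∀ v, g0 < v →
    δ⁻¹ * (((p ^ v : ℕ) : ℝ) ^ c4 * kw p v) * ((p ^ v : ℕ) : ℝ) ^ (2 * τ)
      ≤ 1 / (p : ℝ) ^ 2 * (1 / 2) ^ (v - g0)
  Ys : (2 / (Y : ℝ)) ^ s ≤ 1 - (2 : ℝ) ^ (-s)
  gain : ∀ q ∈ M2, omR tyP R q * kapProd kw q ≤ gn * kapProd (kwz tyP R δ c4 kw) q

/-- **(LV)** -/
theorem LV {tyP : ℕ → Prop} [DecidablePred tyP] {Pr : Finset ℕ} {kw : ℕ → ℕ → ℝ} {R : ℕ → ℝ}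
    {ty : ℕ → J} {ell X : J → ℝ} {M2 : Finset ℕ} {g0 N Y M : ℕ}
    {A τ Θ σ M0 δ c4 s gn : ℝ} (H : LVNum tyP Pr kw R ty ell X M2 g0 N Y M A τ Θ σ M0 δ c4 s gn)
    {S : Finset ℤ} {y : ℤ} (hS : S ⊆ Ioc y (y + M)) {f : ℤ → ℝ} (hf0 : ∀ n ∈ S, 0 ≤ f n)
    (hw : ∀ n ∈ S, f n ≠ 0 → W w (red n) ≠ 0) (hw0 : ∀ i a, 0 ≤ w i a) {q : ι → ℝ}
    (hq0 : ∀ i, 0 ≤ q i) (hq1 : ∀ i, q i ≤ 1) {T : Finset ι} {x : ∀ i, V i}
    (hx0 : ∀ i ∈ T, 0 < w i (x i)) (hx1 : ∀ i ∈ T, w i (x i) ≤ 1)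
    (hsup : ∀ n ∈ S, (M : ℝ) * (f n * ∏ i ∈ T, (w i (x i))⁻¹) ≤ A)
    {Amp G0 : ℝ} (hAmp : 0 ≤ Amp) (hG0 : 0 ≤ G0)
    (hSg : ∀ d : ℕ, 1 ≤ d → (d : ℝ) ≤ M0 * Real.exp (Θ / 2) → (∀ p ∈ d.primeFactors, p ∈ Pr) →
      ∀ z : ℕ, z < d → uo q w (pF w red S
        (fun n => if n ≡ z [ZMOD (d : ℕ)] then (d : ℝ) * f n else 0)) (mask T x)
          ≤ Amp * (G0 * (d : ℝ) ^ τ)) :
    ∑ m2 ∈ M2, omR tyP R m2 * kapProd kw m2 *
      ∑ a ∈ (range m2).filter (Nat.Coprime m2),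
        (uo q w (pF w red S (fun n => f n * (zc a m2 n).re)) (mask T x) ^ 2 +
          uo q w (pF w red S (fun n => f n * (zc a m2 n).im)) (mask T x) ^ 2)
      ≤ gn * (288 * (G0 ^ 2 + 1) * Real.exp (∑ j, X j + 1)) * (Amp ^ 2 + 1) := by
  have hom : ∀ n, 0 ≤ omc w red q T x n := fun n => omc_nonneg hw0 hq0 hq1 T x n
  have hcls := cls_weight (g := gz tyP g0) (A := A) (F := fun n => f n * omc w red q T x n)
    H.prime (fun p _ => by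
      unfold gz
      split_ifs
      · exact le_rfl
      · have := H.g2; omega) hS H.M1
    (fun n hn => mul_nonneg (hf0 n hn) (hom n)) (by have := H.A1; linarith) (fun n hn => by
      refine le_trans ?_ (hsup n hn)
      refine mul_le_mul_of_nonneg_left ?_ (Nat.cast_nonneg _)
      exact mul_le_mul_of_nonneg_left (omc_le hq0 hq1 T x hx0 hx1 n) (hf0 n hn))
  have hB : 0 < Amp * G0 + 1 := by positivity
  have hmain := topW (tyP := tyP) (g0 := g0) (N := N) (Y := Y) hcls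
    (fun q => wE_nonneg S _ q) (by norm_num) H.A1 H.prime H.kw0 H.R0 hB H.τ0 H.Θ0 H.σ0 H.σA H.g2
    H.δ0 H.s0 H.gn0 H.Y1 H.ell1 H.X0 H.logN H.Yp H.ellp M2 H.Q H.cap (fun d hd hdM hdP => ?_)
    H.typed H.untyped H.Ys
    (hi_kwz H.prime H.kw0 H.R0 H.δ0 (fun q hq => (H.Q q hq).2.1) H.high) H.gain
  · have h1 : ∑ m2 ∈ M2, omR tyP R m2 * kapProd kw m2 *
        ∑ a ∈ (range m2).filter (Nat.Coprime m2),
          (uo q w (pF w red S (fun n => f n * (zc a m2 n).re)) (mask T x) ^ 2 +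
            uo q w (pF w red S (fun n => f n * (zc a m2 n).im)) (mask T x) ^ 2)
        = ∑ m2 ∈ M2, omR tyP R m2 * kapProd kw m2 *
          wE S (fun n => f n * omc w red q T x n) m2 := by
      refine sum_congr rfl fun m2 _ => ?_
      rw [wE_eq hw]
    rw [h1]
    refine hmain.trans ?_
    have h2 : (Amp * G0 + 1) ^ 2 + 1 ≤ 3 * ((G0 ^ 2 + 1) * (Amp ^ 2 + 1)) := by
      have h3 : (Amp * G0 + 1) ^ 2 ≤ 2 * (Amp * G0) ^ 2 + 2 := by nlinarith [sq_nonneg (Amp * G0 - 1)]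
      nlinarith [sq_nonneg Amp, sq_nonneg G0, mul_nonneg (sq_nonneg Amp) (sq_nonneg G0)]
    have hE : 0 ≤ Real.exp (∑ j, X j + 1) := Real.exp_nonneg _
    calc gn * (4 * 8 * ((Amp * G0 + 1) ^ 2 + 1) * 3 * Real.exp (∑ j, X j + 1))
        ≤ gn * (4 * 8 * (3 * ((G0 ^ 2 + 1) * (Amp ^ 2 + 1))) * 3 * Real.exp (∑ j, X j + 1)) := by
          refine mul_le_mul_of_nonneg_left ?_ H.gn0
          refine mul_le_mul_of_nonneg_right ?_ hE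
          linarith
      _ = _ := by ring
  · have hd0 : (0 : ℝ) < d := by exact_mod_cast hd
    have hdτ : 0 ≤ (d : ℝ) ^ τ := Real.rpow_nonneg hd0.le _
    have h1 := MBw_of hw q T x hd (hSg d hd hdM hdP)
    intro z
    refine (h1 z).trans ?_
    refine div_le_div_of_nonneg_right ?_ hd0.le
    nlinarith

end

end Vale.Agent.P042.H892
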