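import Vale.Agent.P042.H892.LVNum
import Vale.Agent.P042.H121.F1d
import Vale.Agent.P042.H944.TopKwS

set_option autoImplicit false
set_option linter.unusedSectionVars false

/-!
The level inequality (LV) in the frame of `H121.f1_full`: the typed primes are the upper typed
sites, the moduli are `H121.M2f`; the gain is `1` for `𝓜 = {1}` and `P ^ (-1/8) * Z ^ (-c4)` for
super-moduli `> Z`.
-/

namespace Vale.Agent.P042.H892

open Finset Vale.Agent.P042 Vale.Agent.P042.H188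
open Vale.Agent.P042.H121 (M2f mem_M2f)

section
variable {α J : Type} [Fintype α] [DecidableEq α] (lo : α → Prop) [DecidablePred lo] (prm : α → ℕ)

/-- the upper typed primes -/
def tyU (p : ℕ) : Prop := ∃ i, ¬ lo i ∧ prm i = p

instance instDecTyU : DecidablePred (tyU lo prm) := fun p => by
  unfold tyU
  infer_instance

/-- the radius of an upper typed prime -/
noncomputable def RU (ty : α → J) (r : J → ℝ) (p : ℕ) : ℝ :=
  if h : ∃ i, ¬ lo i ∧ prm i = p then r (ty h.choose) else 1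

/-- the scale of an upper typed prime -/
noncomputable def tyO (ty : α → J) (p : ℕ) : Option J :=
  if h : ∃ i, ¬ lo i ∧ prm i = p then some (ty h.choose) else none

/-- lengths of the scales, with a dummy scale -/
noncomputable def ellO (ell : J → ℝ) : Option J → ℝ := fun o => o.elim 1 ell

/-- costs of the scales, with a dummy scale -/
noncomputable def XO (X r : J → ℝ) : Option J → ℝ := fun o => o.elim 0 (fun j => X j * r j)

/-- the primes of the moduli -/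
def PrF (T : Finset ℕ) (Y M0 : ℕ) : Finset ℕ :=
  (range (M0 + 1)).filter (fun p => p.Prime ∧ p ∉ T ∧ (tyU lo prm p ∨ Y ≤ p))

variable {lo} {prm}

lemma RU_prm (hinj : Function.Injective prm) {ty : α → J} {r : J → ℝ} {i : α} (hi : ¬ lo i) :
    RU lo prm ty r (prm i) = r (ty i) := by
  have h : ∃ j, ¬ lo j ∧ prm j = prm i := ⟨i, hi, rfl⟩
  unfold RU
  rw [dif_pos h, hinj h.choose_spec.2]

lemma tyO_prm (hinj : Function.Injective prm) {ty : α → J} {i : α} (hi : ¬ lo i) :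
    tyO lo prm ty (prm i) = some (ty i) := by
  have h : ∃ j, ¬ lo j ∧ prm j = prm i := ⟨i, hi, rfl⟩
  unfold tyO
  rw [dif_pos h, hinj h.choose_spec.2]

lemma RU_nonneg {ty : α → J} {r : J → ℝ} (hr : ∀ j, 0 ≤ r j) (p : ℕ) : 0 ≤ RU lo prm ty r p := by
  unfold RU
  split_ifs
  · exact hr _
  · exact zero_le_one

lemma sum_XO [Fintype J] (X r : J → ℝ) : ∑ o, XO X r o = ∑ j, X j * r j := by
  rw [Fintype.sum_option]
  unfold XO
  simp

/-- prime factors of a modulus -/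
lemma M2f_prime {m : ℕ} {U : Finset α} {p : ℕ} (hp : p.Prime)
    (hpp : ∀ i, (prm i).Prime) (h : p ∣ (∏ i ∈ U, prm i) * m) : (∃ i ∈ U, prm i = p) ∨ p ∣ m := by
  rcases (hp.dvd_mul).1 h with h1 | h1
  · left
    obtain ⟨i, hi, hd⟩ := (hp.prime.dvd_finsetProd_iff _).1 h1
    exact ⟨i, hi, ((Nat.prime_dvd_prime_iff_eq hp (hpp i)).1 hd).symm⟩
  · exact Or.inr h1

/-- the exponents in a product of distinct primes -/
lemma fac_prod (hpp : ∀ i, (prm i).Prime) (hinj : Function.Injective prm) (U : Finset α) (p : ℕ) :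
    (∏ i ∈ U, prm i).factorization p = if ∃ i ∈ U, prm i = p then 1 else 0 := by
  classical
  rw [Nat.factorization_prod fun i _ => (hpp i).ne_zero, Finsupp.finsetSum_apply]
  have h1 : ∀ i ∈ U, (prm i).factorization p = if prm i = p then 1 else 0 := by
    intro i _
    rw [(hpp i).factorization, Finsupp.single_apply]
  rw [sum_congr rfl h1]
  split_ifs with h
  · obtain ⟨i, hi, rfl⟩ := h
    rw [sum_eq_single i]
    · simp
    · intro j _ hji
      rw [if_neg fun h2 => hji (hinj h2)]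
    · intro h2
      exact absurd hi h2
  · exact sum_eq_zero fun i hi => if_neg fun h2 => h ⟨i, hi, h2⟩

/-- typed primes occur to the first power -/
lemma fac_typed (hpp : ∀ i, (prm i).Prime) (hinj : Function.Injective prm) {m : ℕ} (hm : 1 ≤ m)
    (hmt : ∀ i, ¬ lo i → ¬ prm i ∣ m) {U : Finset α} {p : ℕ}
    (hp : p ∈ ((∏ i ∈ U, prm i) * m).primeFactors) (ht : tyU lo prm p) :
    ((∏ i ∈ U, prm i) * m).factorization p = 1 := by
  obtain ⟨i, hi, rfl⟩ := ht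
  have h0 : (∏ i ∈ U, prm i) ≠ 0 := prod_ne_zero_iff.2 fun i _ => (hpp i).ne_zero
  rw [Nat.factorization_mul h0 (by omega), Finsupp.add_apply, fac_prod hpp hinj]
  rcases M2f_prime (hpp i) hpp (Nat.dvd_of_mem_primeFactors hp) with h1 | h1
  · rw [if_pos h1, Nat.factorization_eq_zero_of_not_dvd (hmt i hi)]
  · exact absurd h1 (hmt i hi)

/-- the untyped part of a modulus -/
lemma unt_eq (hpp : ∀ i, (prm i).Prime) (hinj : Function.Injective prm) {m : ℕ} (hm : 1 ≤ m)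
    (hmt : ∀ i, ¬ lo i → ¬ prm i ∣ m) {U : Finset α} (hU : ∀ i ∈ U, ¬ lo i) :
    unt (tyU lo prm) ((∏ i ∈ U, prm i) * m) = m := by
  have h0 : (∏ i ∈ U, prm i) ≠ 0 := prod_ne_zero_iff.2 fun i _ => (hpp i).ne_zero
  have hm0 : m ≠ 0 := by omega
  unfold unt
  have h1 : ((∏ i ∈ U, prm i) * m).primeFactors.filter (fun p => ¬ tyU lo prm p)
      = m.primeFactors := by
    ext p
    rw [mem_filter]
    constructor
    · rintro ⟨h2, h3⟩
      have hp := Nat.prime_of_mem_primeFactors h2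
      rcases M2f_prime hp hpp (Nat.dvd_of_mem_primeFactors h2) with h4 | h4
      · obtain ⟨i, hi, rfl⟩ := h4
        exact absurd ⟨i, hU i hi, rfl⟩ h3
      · exact Nat.mem_primeFactors.2 ⟨hp, h4, hm0⟩
    · intro h2
      refine ⟨Nat.mem_primeFactors.2 ⟨Nat.prime_of_mem_primeFactors h2,
        (Nat.dvd_of_mem_primeFactors h2).mul_left _, mul_ne_zero h0 hm0⟩, ?_⟩
      rintro ⟨i, hi, rfl⟩
      exact hmt i hi (Nat.dvd_of_mem_primeFactors h2)
  rw [h1]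
  have h2 : ∏ p ∈ m.primeFactors, p ^ ((∏ i ∈ U, prm i) * m).factorization p
      = ∏ p ∈ m.primeFactors, p ^ m.factorization p := by
    refine prod_congr rfl fun p hp => ?_
    rw [Nat.factorization_mul h0 hm0, Finsupp.add_apply, fac_prod hpp hinj, if_neg, zero_add]
    rintro ⟨i, hi, rfl⟩
    exact hmt i (hU i hi) (Nat.dvd_of_mem_primeFactors hp)
  rw [h2]
  exact Nat.prod_factorization_pow_eq_self hm0

/-! ### numbers of the typed scales -/

/-- the cost of a typed scale; `0` where there is no upper typed prime -/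
noncomputable def XU [DecidableEq J] (lo : α → Prop) [DecidablePred lo] (ty : α → J) (k : ℕ)
    (Θ τ σ : ℝ) (ell : J → ℝ) (j : J) : ℝ :=
  if ∃ i, ¬ lo i ∧ ty i = j then 192 * k * Θ * Real.exp ((-(1 / 2) + τ + σ) * ell j) else 0

lemma XU_nonneg [DecidableEq J] {ty : α → J} {k : ℕ} {Θ τ σ : ℝ} (hΘ : 0 ≤ Θ) {ell : J → ℝ}
    (j : J) : 0 ≤ XU lo ty k Θ τ σ ell j := by
  unfold XU
  split_ifs
  · positivity
  · exact le_rfl

lemma XU_ge [DecidableEq J] {ty : α → J} {k : ℕ} {Θ τ σ : ℝ} {ell : J → ℝ} {i : α}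
    (hi : ¬ lo i) : 192 * k * Θ * Real.exp ((-(1 / 2) + τ + σ) * ell (ty i))
      ≤ XU lo ty k Θ τ σ ell (ty i) := by
  unfold XU
  rw [if_pos ⟨i, hi, rfl⟩]

/-- **the typed scales above `P ^ (2 - kap)` are cheap** -/
theorem XU_le (k : ℕ) {g' : ℝ} (hg : 0 < g') : ∃ P0 : ℝ, 1 ≤ P0 ∧ ∀ P : ℝ, P0 ≤ P →
    ∀ {α J : Type} [Fintype α] [DecidableEq J] {lo : α → Prop} [DecidablePred lo] {ty : α → J}
      {ell : J → ℝ} {kap Θ τ σ : ℝ}, kap ≤ g' → kap ≤ 1 → 0 ≤ Θ → Θ ≤ P → τ + σ ≤ g' / 4 →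
      (τ + σ ≤ 1 / 2) → (∀ i, ¬ lo i → (2 - kap) * Real.log P ≤ ell (ty i)) →
      ∀ j, XU lo ty k Θ τ σ ell j ≤ Real.exp (g' * ell j) / 4 := by
  have ht : Filter.Tendsto (fun P : ℝ => P ^ (g' / 4)) Filter.atTop Filter.atTop :=
    tendsto_rpow_atTop (by positivity)
  obtain ⟨P1, hP1⟩ := Filter.eventually_atTop.mp (ht.eventually_ge_atTop (768 * (k : ℝ)))
  refine ⟨max 1 P1, le_max_left _ _, ?_⟩
  intro P hP α J _ _ lo _ ty ell kap Θ τ σ hkap hkap1 hΘ0 hΘ hτσ hτσ1 hell j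
  have hP1' : 1 ≤ P := (le_max_left _ _).trans hP
  have hP0 : 0 < P := by linarith
  have hPa : 768 * (k : ℝ) ≤ P ^ (g' / 4) := hP1 P ((le_max_right _ _).trans hP)
  have hlog : 0 ≤ Real.log P := Real.log_nonneg hP1'
  unfold XU
  split_ifs with h
  · obtain ⟨i, hi, rfl⟩ := h
    have h1 := hell i hi
    have h2 : 0 ≤ (2 - kap) * Real.log P := mul_nonneg (by linarith) hlog
    have h3 : (1 + g' / 4) * Real.log P ≤ (1 / 2 - τ - σ + g') * ell (ty i) := by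
      have h4 : (1 / 2 + 3 * g' / 4) * ell (ty i) ≤ (1 / 2 - τ - σ + g') * ell (ty i) := by
        refine mul_le_mul_of_nonneg_right (by linarith) (h2.trans h1)
      have h5 : (1 / 2 + 3 * g' / 4) * ((2 - kap) * Real.log P)
          ≤ (1 / 2 + 3 * g' / 4) * ell (ty i) := mul_le_mul_of_nonneg_left h1 (by positivity)
      have h6 : (1 + g' / 4) * Real.log P ≤ (1 / 2 + 3 * g' / 4) * ((2 - kap) * Real.log P) := by
        have h7 : 1 + g' / 4 ≤ (1 / 2 + 3 * g' / 4) * (2 - kap) := by nlinarith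
        calc (1 + g' / 4) * Real.log P ≤ ((1 / 2 + 3 * g' / 4) * (2 - kap)) * Real.log P :=
              mul_le_mul_of_nonneg_right h7 hlog
          _ = _ := by ring
      linarith
    have h8 : 768 * k * Θ ≤ Real.exp ((1 / 2 - τ - σ + g') * ell (ty i)) := by
      calc 768 * (k : ℝ) * Θ ≤ P ^ (g' / 4) * P := mul_le_mul hPa hΘ hΘ0 (by positivity)
        _ = Real.exp ((1 + g' / 4) * Real.log P) := by
            rw [Real.rpow_def_of_pos hP0]
            nth_rw 2 [← Real.exp_log hP0]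
            rw [← Real.exp_add]
            congr 1
            ring
        _ ≤ _ := Real.exp_le_exp.2 h3
    have h9 : Real.exp (g' * ell (ty i)) = Real.exp ((1 / 2 - τ - σ + g') * ell (ty i)) *
        Real.exp ((-(1 / 2) + τ + σ) * ell (ty i)) := by
      rw [← Real.exp_add]
      congr 1
      ring
    rw [h9]
    have h10 := mul_le_mul_of_nonneg_right h8
      (Real.exp_pos ((-(1 / 2) + τ + σ) * ell (ty i))).le
    linarith
  · positivity

/-! ### (LV) in the frame -/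

/-- **`LVNum` in the frame of `H121.f1_full`**, both for `𝓜 = {1}` and for large super-moduli -/
theorem lv_inst (k : ℕ) {c : ℝ} (hc : 0 < c) (hc1 : c ≤ 1 / 4) : ∃ P0 : ℝ, 1 ≤ P0 ∧
    ∀ P : ℝ, P0 ≤ P → ∀ {α J : Type} [Fintype α] [DecidableEq α] [Fintype J] [DecidableEq J]
      {lo : α → Prop} [DecidablePred lo] {prm : α → ℕ} {ty : α → J} {ell r X : J → ℝ}
      {T : Finset ℕ} {kw : ℕ → ℕ → ℝ} {Y M M0 : ℕ} {A τ Θ σ c4 : ℝ},
    (∀ i, (prm i).Prime) → Function.Injective prm → (∀ i, ¬ lo i → prm i ∉ T) →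
    (∀ i, ¬ lo i → Real.log (prm i) ≤ ell (ty i) ∧
      ell (ty i) ≤ Real.log (prm i) + Real.log 2) → (∀ j, 1 ≤ ell j) →
    (∀ j, 0 ≤ r j) → (∀ j, 0 ≤ X j) →
    (∀ i, ¬ lo i → 192 * k * Θ * Real.exp ((-(1 / 2) + τ + σ) * ell (ty i)) ≤ X (ty i)) →
    (∀ p v, 0 ≤ kw p v) →
    (∀ p : ℕ, p.Prime → p ∉ T → ∀ v : ℕ, 1 ≤ v → kw p v ≤ 4 * k / √(p : ℝ)) →
    (∀ p : ℕ, p.Prime → p ∉ T → ∀ v : ℕ, 1 ≤ v → kw p v ≤ (p : ℝ) ^ (-(c * v))) →
    1 ≤ A → 0 ≤ τ → τ * g0c c ≤ 1 / 32 → 0 ≤ Θ → Θ ≤ P → 0 ≤ σ → σ * g0c c ≤ 1 / 32 →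
    2 * Real.log A ≤ σ * Θ → 0 ≤ c4 → c4 * g0c c ≤ 1 / 16 →
    P ^ 4 ≤ (Y : ℝ) → 1 ≤ M0 → 4 * g0c c * Real.log M0 ≤ Θ → M0 * Real.exp (5 * Θ) ≤ M →
    (LVNum (tyU lo prm) (PrF lo prm T Y M0) kw (RU lo prm ty r) (tyO lo prm ty) (ellO ell)
      (XO X r) (M2f lo prm M0 {1}) (g0c c) (Nat.log 2 M0) Y M A τ Θ σ M0 (P ^ (-(1 / 8) : ℝ)) c4
      (1 / 32) 1) ∧
    ∀ (𝓜 : Finset ℕ) (Z : ℝ), 1 ≤ Z → (∀ m ∈ 𝓜, Z < (m : ℝ)) →
      (∀ m ∈ 𝓜, ∀ p : ℕ, p.Prime → p ∣ m → p ∉ T ∧ Y ≤ p) →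
      (∀ m ∈ 𝓜, ∀ i, ¬ lo i → ¬ prm i ∣ m) →
    LVNum (tyU lo prm) (PrF lo prm T Y M0) kw (RU lo prm ty r) (tyO lo prm ty) (ellO ell)
      (XO X r) (M2f lo prm M0 𝓜) (g0c c) (Nat.log 2 M0) Y M A τ Θ σ M0 (P ^ (-(1 / 8) : ℝ)) c4
      (1 / 32) (P ^ (-(1 / 8) : ℝ) * Z ^ (-c4)) := by
  obtain ⟨P0, hP01, hmain⟩ := lvnum_F k hc hc1
  refine ⟨P0, hP01, ?_⟩
  intro P hP α J _ _ _ _ lo _ prm ty ell r X T kw Y M M0 A τ Θ σ c4 hpp hinj hpT hell hell1 hr hX0
    hX hkw0 hkw1 hkw2 hA hτ0 hτ hΘ0 hΘ hσ0 hσ hσA hc40 hc4 hY hM0 hM0Θ hcap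
  have hP1 : 1 ≤ P := hP01.trans hP
  -- the common part
  have hcommon : ∀ (𝓜 : Finset ℕ) (gn : ℝ), 0 ≤ gn → (∀ m ∈ 𝓜, 1 ≤ m) →
      (∀ m ∈ 𝓜, ∀ p : ℕ, p.Prime → p ∣ m → p ∉ T ∧ Y ≤ p) →
      (∀ q ∈ M2f lo prm M0 𝓜, omR (tyU lo prm) (RU lo prm ty r) q * kapProd kw q ≤ gn *
        kapProd (kwz (tyU lo prm) (RU lo prm ty r) (P ^ (-(1 / 8) : ℝ)) c4 kw) q) →
      LVNum (tyU lo prm) (PrF lo prm T Y M0) kw (RU lo prm ty r) (tyO lo prm ty) (ellO ell)
        (XO X r) (M2f lo prm M0 𝓜) (g0c c) (Nat.log 2 M0) Y M A τ Θ σ M0 (P ^ (-(1 / 8) : ℝ)) c4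
        (1 / 32) gn := by
    intro 𝓜 gn hgn h𝓜1 h𝓜 hgain
    have hN : Nat.log 2 M0 = Nat.log 2 ⌊(M0 : ℝ)⌋₊ := by rw [Nat.floor_natCast]
    rw [hN]
    refine hmain P hP (J := Option J) ?_ hkw0 ?_ ?_ (RU_nonneg hr) ?_ ?_ hA hτ0 hτ hΘ0 hΘ hσ0 hσ
      hσA hc40 hc4 hgn hY ?_ ?_ ?_ ?_ ?_ hM0Θ ?_ hcap hgain
    · intro p hp
      unfold PrF at hp
      exact (mem_filter.1 hp).2.1
    · intro p hp v hv
      unfold PrF at hp
      obtain ⟨_, h1, h2, _⟩ := mem_filter.1 hp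
      exact hkw1 p h1 h2 v hv
    · intro p hp v hv
      unfold PrF at hp
      obtain ⟨_, h1, h2, _⟩ := mem_filter.1 hp
      exact hkw2 p h1 h2 v hv
    · intro o
      cases o with
      | none => exact le_rfl
      | some j => exact mul_nonneg (hX0 j) (hr j)
    · rintro p hp ⟨i, hi, rfl⟩
      rw [tyO_prm hinj hi, RU_prm hinj hi]
      exact mul_le_mul_of_nonneg_right (hX i hi) (hr _)
    · intro o
      cases o with
      | none => exact le_rfl
      | some j => exact hell1 j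
    · intro p hp h
      unfold PrF at hp
      exact ((mem_filter.1 hp).2.2.2).resolve_left h
    · rintro p hp ⟨i, hi, rfl⟩
      rw [tyO_prm hinj hi]
      exact hell i hi
    · intro p hp
      unfold PrF at hp
      have := mem_range.1 (mem_filter.1 hp).1
      exact_mod_cast (by omega : p ≤ M0)
    · intro q hq
      obtain ⟨m, hm, U, hU, hle, rfl⟩ := mem_M2f.1 hq
      have h0 : 0 < ∏ i ∈ U, prm i := prod_pos fun i _ => (hpp i).pos
      have h1 : 1 ≤ (∏ i ∈ U, prm i) * m := Nat.mul_pos h0 (h𝓜1 m hm)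
      refine ⟨h1, by exact_mod_cast hle, fun p hp => ?_⟩
      have hp' := Nat.prime_of_mem_primeFactors hp
      have hd := Nat.dvd_of_mem_primeFactors hp
      have hpM : p ≤ M0 := (Nat.le_of_dvd h1 hd).trans hle
      unfold PrF
      rw [mem_filter, mem_range]
      rcases M2f_prime hp' hpp hd with h2 | h2
      · obtain ⟨i, hi, rfl⟩ := h2
        exact ⟨by omega, hp', hpT i (hU i hi), Or.inl ⟨i, hU i hi, rfl⟩⟩
      · obtain ⟨h3, h4⟩ := h𝓜 m hm p hp' h2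
        exact ⟨by omega, hp', h3, Or.inr h4⟩
    · exact_mod_cast hM0
  refine ⟨?_, ?_⟩
  · refine hcommon {1} 1 zero_le_one ?_ ?_ ?_
    · intro m hm
      rw [mem_singleton] at hm
      omega
    · intro m hm p hp hd
      rw [mem_singleton] at hm
      subst hm
      exact absurd (Nat.dvd_one.1 hd) hp.one_lt.ne'
    · intro q hq
      obtain ⟨m, hm, U, hU, hle, rfl⟩ := mem_M2f.1 hq
      rw [mem_singleton] at hm
      subst hm
      refine (gain_one ?_).le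
      intro p hp
      have hp' := Nat.prime_of_mem_primeFactors hp
      have h1 : tyU lo prm p := by
        rcases M2f_prime hp' hpp (Nat.dvd_of_mem_primeFactors hp) with h2 | h2
        · obtain ⟨i, hi, rfl⟩ := h2
          exact ⟨i, hU i hi, rfl⟩
        · exact absurd (Nat.dvd_one.1 h2) hp'.one_lt.ne'
      exact ⟨h1, fac_typed hpp hinj le_rfl
        (fun i _ hd => absurd (Nat.dvd_one.1 hd) (hpp i).one_lt.ne') hp h1⟩
  · intro 𝓜 Z hZ hZm h𝓜 hcop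
    have h𝓜1 : ∀ m ∈ 𝓜, 1 ≤ m := fun m hm => by
      have h1 : (0 : ℝ) < m := by linarith [hZm m hm]
      exact_mod_cast h1
    have hδ : 0 < P ^ (-(1 / 8) : ℝ) := Real.rpow_pos_of_pos (by linarith) _
    refine hcommon 𝓜 _ (mul_nonneg hδ.le (Real.rpow_nonneg (by linarith) _)) h𝓜1 h𝓜 ?_
    intro q hq
    obtain ⟨m, hm, U, hU, hle, rfl⟩ := mem_M2f.1 hq
    refine gain_Z (RU_nonneg hr) hkw0 hδ (Real.rpow_le_one_of_one_le_of_nonpos hP1 (by norm_num))
      hc40 hZ (fun p hp ht => fac_typed hpp hinj (h𝓜1 m hm) (hcop m hm) hp ht) ?_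
    rw [unt_eq hpp hinj (h𝓜1 m hm) (hcop m hm) hU]
    exact hZm m hm

end

end Vale.Agent.P042.H892
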