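import Vale.Agent.P042.H892.LV

/-!
The numbers of (LV) in the power regime: `kw p v ≤ 4 k / √p` and `kw p v ≤ p ^ (-c v)`.
-/

namespace Vale.Agent.P042.H892

open Finset Vale.Agent.P042 Vale.Agent.P042.H188

set_option linter.unusedSectionVars false

/-- the exponent bound of the untyped primes -/
noncomputable def g0c (c : ℝ) : ℕ := ⌈16 / c⌉₊

lemma g0c_ge {c : ℝ} (_hc : 0 < c) : 16 / c ≤ (g0c c : ℝ) := Nat.le_ceil _

lemma g0c_64 {c : ℝ} (hc : 0 < c) (hc1 : c ≤ 1 / 4) : (64 : ℝ) ≤ g0c c := by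
  refine le_trans ?_ (g0c_ge hc)
  rw [le_div_iff₀ hc]; linarith

lemma g0c_inv {c : ℝ} (hc : 0 < c) (hc1 : c ≤ 1 / 4) : 1 / (g0c c : ℝ) ≤ c / 16 := by
  have h := g0c_64 hc hc1
  rw [div_le_iff₀ (by linarith)]
  have := g0c_ge hc
  rw [div_le_iff₀ hc] at this
  linarith

/-- the untyped primes, low exponents -/
lemma unt_num {c c4 τ σ : ℝ} (hc : 0 < c) (hc1 : c ≤ 1 / 4) (hc40 : 0 ≤ c4)
    (hc4 : c4 * g0c c ≤ 1 / 16) (_hτ0 : 0 ≤ τ) (hτ : τ * g0c c ≤ 1 / 32) (_hσ0 : 0 ≤ σ)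
    (hσ : σ * g0c c ≤ 1 / 32) {k : ℕ} {P Θ : ℝ} (hP : 1 ≤ P) (_hΘ0 : 0 ≤ Θ) (hΘ : Θ ≤ P)
    (hPk : 192 * (k : ℝ) ≤ P ^ (1 / 8 : ℝ)) {p : ℕ} (hp : P ^ 4 ≤ (p : ℝ)) {x : ℝ} (hx0 : 0 ≤ x)
    (hx : x ≤ 4 * k / √(p : ℝ)) {v : ℕ} (hv : v ≤ g0c c) :
    24 * Θ * ((P ^ (-(1 / 8) : ℝ))⁻¹ * (((p ^ v : ℕ) : ℝ) ^ c4 * x) * ((p ^ g0c c : ℕ) : ℝ) ^ τ) *
      (2 * (p : ℝ)) ^ (σ * g0c c) ≤ (p : ℝ) ^ (-(1 / 32) : ℝ) := by
  have hP0 : 0 < P := by linarith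
  have hp1 : (1 : ℝ) ≤ p := by
    refine le_trans ?_ hp
    exact one_le_pow₀ hP
  have hp0 : (0 : ℝ) < p := by linarith
  have hg := g0c_64 hc hc1
  -- the four factors
  have e1 : ((p ^ v : ℕ) : ℝ) ^ c4 ≤ (p : ℝ) ^ (1 / 16 : ℝ) := by
    rw [Nat.cast_pow, ← Real.rpow_natCast, ← Real.rpow_mul hp0.le]
    refine Real.rpow_le_rpow_of_exponent_le hp1 (le_trans ?_ hc4)
    rw [mul_comm]
    refine mul_le_mul_of_nonneg_left ?_ hc40
    exact_mod_cast hv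
  have e2 : ((p ^ g0c c : ℕ) : ℝ) ^ τ ≤ (p : ℝ) ^ (1 / 32 : ℝ) := by
    rw [Nat.cast_pow, ← Real.rpow_natCast, ← Real.rpow_mul hp0.le]
    refine Real.rpow_le_rpow_of_exponent_le hp1 (le_trans (le_of_eq ?_) hτ)
    ring
  have e3 : (2 * (p : ℝ)) ^ (σ * g0c c) ≤ 2 * (p : ℝ) ^ (1 / 32 : ℝ) := by
    calc (2 * (p : ℝ)) ^ (σ * g0c c) ≤ (2 * (p : ℝ)) ^ (1 / 32 : ℝ) :=
          Real.rpow_le_rpow_of_exponent_le (by linarith) hσ
      _ = 2 ^ (1 / 32 : ℝ) * (p : ℝ) ^ (1 / 32 : ℝ) := Real.mul_rpow (by norm_num) hp0.le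
      _ ≤ 2 * (p : ℝ) ^ (1 / 32 : ℝ) := by
          refine mul_le_mul_of_nonneg_right ?_ (Real.rpow_nonneg hp0.le _)
          calc (2 : ℝ) ^ (1 / 32 : ℝ) ≤ 2 ^ (1 : ℝ) :=
                Real.rpow_le_rpow_of_exponent_le (by norm_num) (by norm_num)
            _ = 2 := Real.rpow_one 2
  have e4 : x ≤ 4 * k * (p : ℝ) ^ (-(1 / 2) : ℝ) := by
    refine hx.trans (le_of_eq ?_)
    rw [Real.sqrt_eq_rpow, Real.rpow_neg hp0.le, div_eq_mul_inv]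
  have e5 : (P ^ (-(1 / 8) : ℝ))⁻¹ = P ^ (1 / 8 : ℝ) := by
    rw [Real.rpow_neg hP0.le, inv_inv]
  rw [e5]
  have hk0 : (0 : ℝ) ≤ k := Nat.cast_nonneg _
  have hPP : 0 ≤ P ^ (1 / 8 : ℝ) := Real.rpow_nonneg hP0.le _
  calc 24 * Θ * (P ^ (1 / 8 : ℝ) * (((p ^ v : ℕ) : ℝ) ^ c4 * x) *
        ((p ^ g0c c : ℕ) : ℝ) ^ τ) * (2 * (p : ℝ)) ^ (σ * g0c c)
      ≤ 24 * P * (P ^ (1 / 8 : ℝ) * ((p : ℝ) ^ (1 / 16 : ℝ) *
          (4 * k * (p : ℝ) ^ (-(1 / 2) : ℝ))) * (p : ℝ) ^ (1 / 32 : ℝ)) *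
          (2 * (p : ℝ) ^ (1 / 32 : ℝ)) := by
        gcongr
    _ = (192 * k) * (P * P ^ (1 / 8 : ℝ)) * ((p : ℝ) ^ (1 / 16 : ℝ) * (p : ℝ) ^ (-(1 / 2) : ℝ) *
          (p : ℝ) ^ (1 / 32 : ℝ) * (p : ℝ) ^ (1 / 32 : ℝ)) := by ring
    _ = (192 * k) * (P * P ^ (1 / 8 : ℝ)) * (p : ℝ) ^ (-(3 / 8) : ℝ) := by
        rw [← Real.rpow_add hp0, ← Real.rpow_add hp0, ← Real.rpow_add hp0]
        norm_num
    _ ≤ P ^ (1 / 8 : ℝ) * (P * P ^ (1 / 8 : ℝ)) * (p : ℝ) ^ (-(3 / 8) : ℝ) := by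
        gcongr
    _ = P ^ (5 / 4 : ℝ) * (p : ℝ) ^ (-(3 / 8) : ℝ) := by
        congr 1
        nth_rw 2 [← Real.rpow_one P]
        rw [← Real.rpow_add hP0, ← Real.rpow_add hP0]
        norm_num
    _ ≤ (p : ℝ) ^ (5 / 16 : ℝ) * (p : ℝ) ^ (-(3 / 8) : ℝ) := by
        refine mul_le_mul_of_nonneg_right ?_ (Real.rpow_nonneg hp0.le _)
        calc P ^ (5 / 4 : ℝ) = (P ^ 4) ^ (5 / 16 : ℝ) := by
              rw [← Real.rpow_natCast, ← Real.rpow_mul hP0.le]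
              norm_num
          _ ≤ (p : ℝ) ^ (5 / 16 : ℝ) := Real.rpow_le_rpow (by positivity) hp (by norm_num)
    _ ≤ (p : ℝ) ^ (-(1 / 32) : ℝ) := by
        rw [← Real.rpow_add hp0]
        exact Real.rpow_le_rpow_of_exponent_le hp1 (by norm_num)

/-- the untyped primes, high exponents -/
lemma high_num {c c4 τ : ℝ} (hc : 0 < c) (hc1 : c ≤ 1 / 4) (_hc40 : 0 ≤ c4)
    (hc4 : c4 * g0c c ≤ 1 / 16) (_hτ0 : 0 ≤ τ) (hτ : τ * g0c c ≤ 1 / 32)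
    {P : ℝ} (hP : 1 ≤ P) {p : ℕ} (hp : P ^ 4 ≤ (p : ℝ)) (hp2 : (2 : ℝ) ≤ (p : ℝ) ^ (c / 2))
    {x : ℝ} (hx0 : 0 ≤ x) {v : ℕ} (hx : x ≤ (p : ℝ) ^ (-(c * v))) (hv : g0c c < v) :
    (P ^ (-(1 / 8) : ℝ))⁻¹ * (((p ^ v : ℕ) : ℝ) ^ c4 * x) * ((p ^ v : ℕ) : ℝ) ^ (2 * τ)
      ≤ 1 / (p : ℝ) ^ 2 * (1 / 2) ^ (v - g0c c) := by
  have hP0 : 0 < P := by linarith
  have hp1 : (1 : ℝ) ≤ p := by
    refine le_trans ?_ hp
    exact one_le_pow₀ hP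
  have hp0 : (0 : ℝ) < p := by linarith
  have hg := g0c_64 hc hc1
  have hgi := g0c_inv hc hc1
  have hg0 : (0 : ℝ) < g0c c := by linarith
  have hv0 : (0 : ℝ) ≤ v := Nat.cast_nonneg _
  have hsmall : c4 + 2 * τ ≤ c / 2 := by
    have h1 : (c4 + 2 * τ) * g0c c ≤ 1 / 8 := by nlinarith
    have h2 : c4 + 2 * τ ≤ (1 / 8) * (1 / (g0c c : ℝ)) := by
      rw [mul_one_div, le_div_iff₀ hg0]; exact h1
    nlinarith
  have e5 : (P ^ (-(1 / 8) : ℝ))⁻¹ = P ^ (1 / 8 : ℝ) := by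
    rw [Real.rpow_neg hP0.le, inv_inv]
  have e6 : P ^ (1 / 8 : ℝ) ≤ (p : ℝ) ^ (1 : ℝ) := by
    calc P ^ (1 / 8 : ℝ) = (P ^ 4) ^ (1 / 32 : ℝ) := by
          rw [← Real.rpow_natCast, ← Real.rpow_mul hP0.le]; norm_num
      _ ≤ (p : ℝ) ^ (1 / 32 : ℝ) := Real.rpow_le_rpow (by positivity) hp (by norm_num)
      _ ≤ (p : ℝ) ^ (1 : ℝ) := Real.rpow_le_rpow_of_exponent_le hp1 (by norm_num)
  have e1 : ((p ^ v : ℕ) : ℝ) ^ c4 = (p : ℝ) ^ (v * c4) := by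
    rw [Nat.cast_pow, ← Real.rpow_natCast, ← Real.rpow_mul hp0.le]
  have e2 : ((p ^ v : ℕ) : ℝ) ^ (2 * τ) = (p : ℝ) ^ (v * (2 * τ)) := by
    rw [Nat.cast_pow, ← Real.rpow_natCast, ← Real.rpow_mul hp0.le]
  obtain ⟨u, hu⟩ : ∃ u : ℕ, v = g0c c + u := ⟨v - g0c c, by omega⟩
  have hvu : v - g0c c = u := by omega
  have hvr : (v : ℝ) = g0c c + u := by rw [hu]; push_cast; ring
  have hcg : 8 ≤ c / 2 * g0c c := by
    have := g0c_ge hc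
    rw [div_le_iff₀ hc] at this
    nlinarith
  rw [e5, e1, e2, hvu]
  calc P ^ (1 / 8 : ℝ) * ((p : ℝ) ^ (v * c4) * x) * (p : ℝ) ^ (v * (2 * τ))
      ≤ (p : ℝ) ^ (1 : ℝ) * ((p : ℝ) ^ (v * c4) * (p : ℝ) ^ (-(c * v))) *
          (p : ℝ) ^ (v * (2 * τ)) := by
        gcongr
    _ = (p : ℝ) ^ (1 + (v * c4 + -(c * v)) + v * (2 * τ)) := by
        rw [← Real.rpow_add hp0, ← Real.rpow_add hp0, ← Real.rpow_add hp0]
    _ ≤ (p : ℝ) ^ (-2 + -(c / 2 * u)) := by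
        refine Real.rpow_le_rpow_of_exponent_le hp1 ?_
        have h1 : (v : ℝ) * (c4 + 2 * τ) ≤ v * (c / 2) := mul_le_mul_of_nonneg_left hsmall hv0
        rw [hvr] at h1 ⊢
        nlinarith
    _ = 1 / (p : ℝ) ^ 2 * ((p : ℝ) ^ (c / 2))⁻¹ ^ u := by
        rw [Real.rpow_add hp0]
        congr 1
        · rw [Real.rpow_neg hp0.le, one_div, Real.rpow_two]
        · rw [Real.rpow_neg hp0.le, Real.rpow_mul hp0.le, Real.rpow_natCast, inv_pow]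
    _ ≤ 1 / (p : ℝ) ^ 2 * (1 / 2) ^ u := by
        refine mul_le_mul_of_nonneg_left ?_ (by positivity)
        refine pow_le_pow_left₀ (by positivity) ?_ u
        rw [one_div]
        exact inv_anti₀ (by norm_num) hp2

/-- the typed primes -/
lemma typed_num {k : ℕ} {Θ τ σ ell R x : ℝ} (hΘ0 : 0 ≤ Θ) (hτ0 : 0 ≤ τ)
    (hR : 0 ≤ R) {p : ℕ} (hp : 0 < p) (hl1 : Real.log p ≤ ell)
    (hl2 : ell ≤ Real.log p + Real.log 2) (_hx0 : 0 ≤ x) (hx : x ≤ 4 * k / √(p : ℝ)) :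
    24 * Θ * (R * x * (p : ℝ) ^ τ) * Real.exp (σ * ell)
      ≤ 192 * k * Θ * Real.exp ((-(1 / 2) + τ + σ) * ell) * R := by
  have hp0 : (0 : ℝ) < p := by exact_mod_cast hp
  have e1 : x ≤ 4 * k * (2 * Real.exp (-(1 / 2) * ell)) := by
    refine hx.trans ?_
    rw [div_eq_mul_inv]
    refine mul_le_mul_of_nonneg_left ?_ (by positivity)
    have h1 : (√(p : ℝ))⁻¹ = Real.exp (-(1 / 2) * Real.log p) := by
      rw [Real.sqrt_eq_rpow, ← Real.rpow_neg hp0.le, Real.rpow_def_of_pos hp0]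
      congr 1
      ring
    rw [h1]
    calc Real.exp (-(1 / 2) * Real.log p) ≤ Real.exp (Real.log 2 + -(1 / 2) * ell) := by
          refine Real.exp_le_exp.mpr ?_
          have := Real.log_nonneg (by norm_num : (1 : ℝ) ≤ 2)
          linarith
      _ = 2 * Real.exp (-(1 / 2) * ell) := by
          rw [Real.exp_add, Real.exp_log (by norm_num)]
  have e2 : (p : ℝ) ^ τ ≤ Real.exp (τ * ell) := by
    rw [Real.rpow_def_of_pos hp0]
    refine Real.exp_le_exp.mpr ?_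
    nlinarith
  have e3 : Real.exp ((-(1 / 2) + τ + σ) * ell)
      = Real.exp (-(1 / 2) * ell) * Real.exp (τ * ell) * Real.exp (σ * ell) := by
    rw [← Real.exp_add, ← Real.exp_add]
    congr 1
    ring
  rw [e3]
  calc 24 * Θ * (R * x * (p : ℝ) ^ τ) * Real.exp (σ * ell)
      ≤ 24 * Θ * (R * (4 * k * (2 * Real.exp (-(1 / 2) * ell))) * Real.exp (τ * ell)) *
          Real.exp (σ * ell) := by gcongr
    _ = _ := by ring

section
variable {J : Type*} [Fintype J] [DecidableEq J]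

/-- the length of a modulus -/
lemma lng_le {tyP : ℕ → Prop} [DecidablePred tyP] {ty : ℕ → J} {ell : J → ℝ} {g0 N : ℕ}
    (hg0 : 2 ≤ g0) {q : ℕ} (hq : 1 ≤ q)
    (hell : ∀ p ∈ q.primeFactors, tyP p → ell (ty p) ≤ Real.log p + Real.log 2) :
    lng (ellz ell g0 N) (typ (scz tyP ty N) (lo (gz tyP g0) q)) ≤ 2 * g0 * Real.log q := by
  have h1 : lng (ellz ell g0 N) (typ (scz tyP ty N) (lo (gz tyP g0) q))
      = ∑ p ∈ lo (gz tyP g0) q, ellz ell g0 N (scz tyP ty N p) := by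
    rw [sum_typ]; rfl
  rw [h1]
  have h2 : ∀ p ∈ lo (gz tyP g0) q, ellz ell g0 N (scz tyP ty N p) ≤ 2 * g0 * Real.log p := by
    intro p hp
    have hpq := lo_sub (gz tyP g0) q hp
    have hpp := Nat.prime_of_mem_primeFactors hpq
    have hp2 : (2 : ℝ) ≤ p := by exact_mod_cast hpp.two_le
    have hl2 : Real.log 2 ≤ Real.log p := Real.log_le_log (by norm_num) hp2
    have hl0 : 0 < Real.log 2 := Real.log_pos (by norm_num)
    have hg : (2 : ℝ) ≤ g0 := by exact_mod_cast hg0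
    unfold scz
    split_ifs with h
    · show ell (ty p) ≤ _
      have := hell p hpq h
      nlinarith
    · show (g0 : ℝ) * (((min (Nat.log 2 p) N : ℕ) : ℝ) + 1) * Real.log 2 ≤ _
      have h3 : (((min (Nat.log 2 p) N : ℕ) : ℝ) + 1) * Real.log 2 ≤ 2 * Real.log p := by
        have h4 : ((min (Nat.log 2 p) N : ℕ) : ℝ) ≤ (Nat.log 2 p : ℝ) := by
          exact_mod_cast min_le_left _ _
        have h5 : (Nat.log 2 p : ℝ) * Real.log 2 ≤ Real.log p := by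
          have h6 : (2 : ℝ) ^ (Nat.log 2 p) ≤ p := by
            exact_mod_cast Nat.pow_log_le_self 2 hpp.pos.ne'
          have h7 := Real.log_le_log (by positivity) h6
          rwa [Real.log_pow] at h7
        nlinarith
      calc (g0 : ℝ) * (((min (Nat.log 2 p) N : ℕ) : ℝ) + 1) * Real.log 2
          = g0 * ((((min (Nat.log 2 p) N : ℕ) : ℝ) + 1) * Real.log 2) := by ring
        _ ≤ g0 * (2 * Real.log p) := mul_le_mul_of_nonneg_left h3 (Nat.cast_nonneg _)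
        _ = _ := by ring
  have hg : (0 : ℝ) ≤ g0 := Nat.cast_nonneg _
  calc ∑ p ∈ lo (gz tyP g0) q, ellz ell g0 N (scz tyP ty N p)
      ≤ ∑ p ∈ lo (gz tyP g0) q, 2 * (g0 : ℝ) * Real.log p := sum_le_sum h2
    _ = 2 * (g0 : ℝ) * ∑ p ∈ lo (gz tyP g0) q, Real.log p := by rw [mul_sum]
    _ ≤ 2 * (g0 : ℝ) * ∑ p ∈ q.primeFactors, Real.log p := by
        refine mul_le_mul_of_nonneg_left ?_ (by positivity)
        refine sum_le_sum_of_subset_of_nonneg (lo_sub _ q) fun p hp _ => ?_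
        exact Real.log_nonneg (by exact_mod_cast (Nat.prime_of_mem_primeFactors hp).one_le)
    _ ≤ 2 * (g0 : ℝ) * Real.log q := by
        refine mul_le_mul_of_nonneg_left ?_ (by positivity)
        rw [← Real.log_prod fun p hp => by
          exact_mod_cast (Nat.prime_of_mem_primeFactors hp).ne_zero]
        have h3 : ∏ p ∈ q.primeFactors, p ≤ q :=
          Nat.le_of_dvd (by omega) (Nat.prod_primeFactors_dvd q)
        refine Real.log_le_log ?_ ?_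
        · exact prod_pos fun p hp => by
            exact_mod_cast (Nat.prime_of_mem_primeFactors hp).pos
        · have h4 : ((∏ p ∈ q.primeFactors, p : ℕ) : ℝ) ≤ q := by exact_mod_cast h3
          rwa [Nat.cast_prod] at h4

end

/-- **the numbers of (LV), power regime** -/
theorem lvnum_F (k : ℕ) {c : ℝ} (hc : 0 < c) (hc1 : c ≤ 1 / 4) : ∃ P0 : ℝ, 1 ≤ P0 ∧
    ∀ P : ℝ, P0 ≤ P → ∀ {J : Type} [Fintype J] [DecidableEq J] {tyP : ℕ → Prop}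
      [DecidablePred tyP] {Pr : Finset ℕ} {kw : ℕ → ℕ → ℝ} {R : ℕ → ℝ} {ty : ℕ → J} {ell : J → ℝ}
      {X : J → ℝ} {M2 : Finset ℕ} {Y M : ℕ} {A τ Θ σ M0 c4 gn : ℝ},
    (∀ p ∈ Pr, p.Prime) → (∀ p v, 0 ≤ kw p v) →
    (∀ p ∈ Pr, ∀ v, 1 ≤ v → kw p v ≤ 4 * k / √(p : ℝ)) →
    (∀ p ∈ Pr, ∀ v, 1 ≤ v → kw p v ≤ (p : ℝ) ^ (-(c * v))) →
    (∀ p, 0 ≤ R p) → (∀ j, 0 ≤ X j) →
    (∀ p ∈ Pr, tyP p →
      192 * k * Θ * Real.exp ((-(1 / 2) + τ + σ) * ell (ty p)) * R p ≤ X (ty p)) →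
    1 ≤ A → 0 ≤ τ → τ * g0c c ≤ 1 / 32 → 0 ≤ Θ → Θ ≤ P → 0 ≤ σ → σ * g0c c ≤ 1 / 32 →
    2 * Real.log A ≤ σ * Θ → 0 ≤ c4 → c4 * g0c c ≤ 1 / 16 → 0 ≤ gn →
    P ^ 4 ≤ (Y : ℝ) → (∀ j, 1 ≤ ell j) → (∀ p ∈ Pr, ¬ tyP p → Y ≤ p) →
    (∀ p ∈ Pr, tyP p → Real.log p ≤ ell (ty p) ∧ ell (ty p) ≤ Real.log p + Real.log 2) →
    (∀ p ∈ Pr, (p : ℝ) ≤ M0) →
    (∀ q ∈ M2, 1 ≤ q ∧ (q : ℝ) ≤ M0 ∧ ∀ p ∈ q.primeFactors, p ∈ Pr) →
    4 * g0c c * Real.log M0 ≤ Θ → 1 ≤ M0 → M0 * Real.exp (5 * Θ) ≤ M →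
    (∀ q ∈ M2, omR tyP R q * kapProd kw q
      ≤ gn * kapProd (kwz tyP R (P ^ (-(1 / 8) : ℝ)) c4 kw) q) →
    LVNum tyP Pr kw R ty ell X
      M2 (g0c c) (Nat.log 2 ⌊M0⌋₊) Y M A τ Θ σ M0 (P ^ (-(1 / 8) : ℝ)) c4 (1 / 32) gn := by
  -- thresholds
  have ht1 : Filter.Tendsto (fun P : ℝ => P ^ (1 / 8 : ℝ)) Filter.atTop Filter.atTop :=
    tendsto_rpow_atTop (by norm_num)
  have ht2 : Filter.Tendsto (fun P : ℝ => P ^ (c / 2)) Filter.atTop Filter.atTop :=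
    tendsto_rpow_atTop (by positivity)
  have hx1 : (2 : ℝ) ^ (-(1 / 32) : ℝ) < 1 :=
    Real.rpow_lt_one_of_one_lt_of_neg (by norm_num) (by norm_num)
  obtain ⟨P1, hP1⟩ := Filter.eventually_atTop.mp (ht1.eventually_ge_atTop (192 * (k : ℝ)))
  obtain ⟨P2, hP2⟩ := Filter.eventually_atTop.mp (ht2.eventually_ge_atTop 2)
  obtain ⟨P3, hP3⟩ := Filter.eventually_atTop.mp
    (ht1.eventually_ge_atTop ((1 - (2 : ℝ) ^ (-(1 / 32) : ℝ))⁻¹ * 2))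
  refine ⟨max 1 (max P1 (max P2 P3)), le_max_left _ _, ?_⟩
  intro P hP J _ _ tyP _ Pr kw R ty ell X M2 Y M A τ Θ σ M0 c4 gn hPr hkw0 hkw1 hkw2 hR0 hX0 hX hA hτ0
    hτ hΘ0 hΘ hσ0 hσ hσA hc40 hc4 hgn hY hell1 hYp hellp hpM0 hM2 hM0Θ hM01 hcap hgain
  have hP1' : 1 ≤ P := (le_max_left _ _).trans hP
  have hPa : 192 * (k : ℝ) ≤ P ^ (1 / 8 : ℝ) :=
    hP1 P ((le_max_left _ _).trans ((le_max_right _ _).trans hP))
  have hPb : (2 : ℝ) ≤ P ^ (c / 2) := hP2 P ((le_max_left _ _).trans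
    ((le_max_right _ _).trans ((le_max_right _ _).trans hP)))
  have hPc : (1 - (2 : ℝ) ^ (-(1 / 32) : ℝ))⁻¹ * 2 ≤ P ^ (1 / 8 : ℝ) :=
    hP3 P ((le_max_right _ _).trans ((le_max_right _ _).trans ((le_max_right _ _).trans hP)))
  have hP0 : 0 < P := by linarith
  have hg64 := g0c_64 hc hc1
  have hg2 : 2 ≤ g0c c := by
    have : (2 : ℝ) ≤ (g0c c : ℝ) := by linarith
    exact_mod_cast this
  have hPP4 : P ≤ P ^ 4 := by
    calc P = P ^ 1 := (pow_one P).symm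
      _ ≤ P ^ 4 := pow_le_pow_right₀ hP1' (by norm_num)
  have hYpos : (0 : ℝ) < Y := lt_of_lt_of_le (by positivity) hY
  have hpY : ∀ p ∈ Pr, ¬ tyP p → P ^ 4 ≤ (p : ℝ) := fun p hp h =>
    hY.trans (by exact_mod_cast hYp p hp h)
  exact
    { prime := hPr
      kw0 := hkw0
      R0 := hR0
      A1 := hA
      τ0 := hτ0
      Θ0 := hΘ0
      σ0 := hσ0
      σA := hσA
      g2 := hg2
      δ0 := Real.rpow_pos_of_pos hP0 _
      s0 := by norm_num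
      gn0 := hgn
      Y1 := by exact_mod_cast hYpos
      ell1 := hell1
      X0 := hX0
      logN := fun p hp => Nat.log_mono_right (Nat.le_floor (hpM0 p hp))
      Yp := hYp
      ellp := fun p hp h => (hellp p hp h).1
      M1 := by
        have h1 : (1 : ℝ) ≤ M := by
          refine le_trans ?_ hcap
          have := Real.one_le_exp (by positivity : (0 : ℝ) ≤ 5 * Θ)
          nlinarith
        exact_mod_cast h1
      Q := fun q hq => by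
        obtain ⟨h1, h2, h3⟩ := hM2 q hq
        refine ⟨h1, h3, ?_, ?_⟩
        · have h4 := lng_le (N := Nat.log 2 ⌊M0⌋₊) hg2 h1
            (fun p hp h => (hellp p (h3 p hp) h).2)
          have hq0 : (0 : ℝ) < q := by exact_mod_cast h1
          have h5 : Real.log q ≤ Real.log M0 := Real.log_le_log hq0 h2
          have h6 : (0 : ℝ) ≤ g0c c := Nat.cast_nonneg _
          nlinarith
        · refine le_trans ?_ h2
          exact_mod_cast hi_le _ (by omega : q ≠ 0)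
      cap := hcap
      typed := fun p hp h => by
        obtain ⟨h1, h2⟩ := hellp p hp h
        have h3 := typed_num (k := k) (Θ := Θ) (τ := τ) (σ := σ) (ell := ell (ty p)) (R := R p)
          (x := kw p 1) hΘ0 hτ0 (hR0 p) (hPr p hp).pos h1 h2 (hkw0 _ _) (hkw1 p hp 1 le_rfl)
        exact h3.trans (hX p hp h)
      untyped := fun p hp h v hv1 hv => by
        exact unt_num hc hc1 hc40 hc4 hτ0 hτ hσ0 hσ hP1' hΘ0 hΘ hPa (hpY p hp h) (hkw0 _ _)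
          (hkw1 p hp v hv1) hv
      high := fun p hp h v hv => by
        have h1 : (2 : ℝ) ≤ (p : ℝ) ^ (c / 2) := by
          refine hPb.trans (Real.rpow_le_rpow hP0.le (hPP4.trans (hpY p hp h)) (by positivity))
        exact high_num hc hc1 hc40 hc4 hτ0 hτ hP1' (hpY p hp h) h1 (hkw0 _ _)
          (hkw2 p hp v (by omega)) hv
      Ys := by
        have h0 : 0 < 1 - (2 : ℝ) ^ (-(1 / 32) : ℝ) := by linarith
        have h1 : (2 / (Y : ℝ)) ^ (1 / 32 : ℝ) ≤ 2 * (P ^ (1 / 8 : ℝ))⁻¹ := by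
          rw [Real.div_rpow (by norm_num) hYpos.le, div_eq_mul_inv]
          refine mul_le_mul ?_ ?_ (by positivity) (by norm_num)
          · calc (2 : ℝ) ^ (1 / 32 : ℝ) ≤ 2 ^ (1 : ℝ) :=
                  Real.rpow_le_rpow_of_exponent_le (by norm_num) (by norm_num)
              _ = 2 := Real.rpow_one 2
          · refine inv_anti₀ (by positivity) ?_
            calc P ^ (1 / 8 : ℝ) = (P ^ 4) ^ (1 / 32 : ℝ) := by
                  rw [← Real.rpow_natCast, ← Real.rpow_mul hP0.le]; norm_num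
              _ ≤ (Y : ℝ) ^ (1 / 32 : ℝ) := Real.rpow_le_rpow (by positivity) hY (by norm_num)
        refine h1.trans ?_
        have h2 : 0 < P ^ (1 / 8 : ℝ) := Real.rpow_pos_of_pos hP0 _
        rw [← div_eq_mul_inv, div_le_iff₀ h2]
        have h3 := mul_le_mul_of_nonneg_left hPc h0.le
        rw [← mul_assoc, mul_inv_cancel₀ h0.ne', one_mul] at h3
        exact h3
      gain := hgain }

end Vale.Agent.P042.H892
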