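import Vale.Agent.P042.H892.TopF

/-!
The class inequality of `TopF` for a weight on a window, from 188's `coreH` with `L = 1`.
-/

namespace Vale.Agent.P042.H892

open Finset Vale.Agent.P042 Vale.Agent.P042.H188 Vale.Agent.P042.SS Vale.Agent.P042.TT

set_option linter.unusedSectionVars false

/-- energy of a weight at denominator `q` -/
noncomputable def wE (S : Finset ℤ) (F : ℤ → ℝ) (q : ℕ) : ℝ :=
  ∑ a ∈ (range q).filter (Nat.Coprime q),
    ‖∑ n ∈ S, (F n : ℂ) * e (-((n : ℝ) * ((a : ℝ) / q)))‖ ^ 2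

lemma wE_nonneg (S : Finset ℤ) (F : ℤ → ℝ) (q : ℕ) : 0 ≤ wE S F q :=
  sum_nonneg fun _ _ => sq_nonneg _

/-- mass bound of all classes mod `d` -/
def MBw (S : Finset ℤ) (F : ℤ → ℝ) (d : ℕ) (r : ℝ) : Prop :=
  ∀ z : ℤ, ∑ n ∈ S.filter (fun n : ℤ => n ≡ z [ZMOD (d : ℕ)]), F n ≤ r / d

theorem cls_weight {Pr : Finset ℕ} {g : ℕ → ℕ} {y : ℤ} {M : ℕ} {S : Finset ℤ} {F : ℤ → ℝ} {A : ℝ}
    (hPr : ∀ p ∈ Pr, p.Prime) (hg : ∀ p ∈ Pr, 1 ≤ g p) (hS : S ⊆ Ioc y (y + M)) (hM : 1 ≤ M)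
    (hF0 : ∀ n ∈ S, 0 ≤ F n) (hA : 0 < A) (hF1 : ∀ n ∈ S, M * F n ≤ A) :
    ClsIneq Pr g M 8 A (wE S F) (MBw S F) := by
  classical
  intro q2 m X β b Qs hq2 hm hX hβ hb hcap hmass hQs
  have hM0 : (0 : ℝ) < M := by exact_mod_cast hM
  have hm0 : (0 : ℝ) < m := by
    have : (2 : ℝ) ≤ m := by exact_mod_cast hm
    linarith
  obtain ⟨G, hG⟩ : ∃ G : ℤ → ℝ, G = fun n => if n ∈ S then M * F n else 0 := ⟨_, rfl⟩
  have hG0 : ∀ n, 0 ≤ G n := fun n => by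
    rw [hG]; dsimp only
    split_ifs with h
    · exact mul_nonneg hM0.le (hF0 n h)
    · exact le_rfl
  have hG1 : ∀ n, G n ≤ A := fun n => by
    rw [hG]; dsimp only
    split_ifs with h
    · exact hF1 n h
    · exact hA.le
  have hX0 : (0 : ℝ) ≤ X := by linarith
  -- exponential sums
  have hsum : ∀ θ : ℝ, ∑ n ∈ (Ioc y (y + M)).filter (fun n : ℤ => n ≡ 0 [ZMOD ((1 : ℕ) : ℤ)]),
      (G n : ℂ) * e (-((n : ℝ) * θ)) = (M : ℂ) * ∑ n ∈ S, (F n : ℂ) * e (-((n : ℝ) * θ)) := by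
    intro θ
    have h1 : (Ioc y (y + M)).filter (fun n : ℤ => n ≡ 0 [ZMOD ((1 : ℕ) : ℤ)]) = Ioc y (y + M) := by
      refine filter_true_of_mem fun n _ => ?_
      rw [Nat.cast_one]
      exact Int.modEq_one
    rw [h1, mul_sum]
    have h2 : ∀ n ∈ Ioc y (y + M), n ∉ S → (G n : ℂ) * e (-((n : ℝ) * θ)) = 0 := by
      intro n _ hn
      rw [hG]; dsimp only
      rw [if_neg hn]; simp
    rw [← sum_subset hS h2]
    refine sum_congr rfl fun n hn => ?_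
    rw [hG]; dsimp only
    rw [if_pos hn]
    push_cast
    ring
  have hcell : ∀ q, cellE G y M 1 0 q = (M : ℝ) ^ 2 * wE S F q := by
    intro q
    unfold cellE wE
    rw [mul_sum]
    refine sum_congr rfl fun a _ => ?_
    rw [hsum, norm_mul, mul_pow]
    congr 1
    rw [Complex.norm_natCast]
  have hmassG : ∀ d : ℕ, ∀ z : ℤ, mass G y M d z
      = M * ∑ n ∈ S.filter (fun n : ℤ => n ≡ z [ZMOD (d : ℕ)]), F n := by
    intro d z
    unfold mass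
    rw [mul_sum]
    have h2 : S.filter (fun n : ℤ => n ≡ z [ZMOD (d : ℕ)])
        ⊆ (Ioc y (y + M)).filter (fun n : ℤ => n ≡ z [ZMOD (d : ℕ)]) :=
      filter_subset_filter _ hS
    rw [← sum_subset h2]
    · refine sum_congr rfl fun n hn => ?_
      rw [hG]; dsimp only
      rw [if_pos (mem_filter.mp hn).1]
    · intro n hn hn'
      rw [hG]; dsimp only
      rw [if_neg]
      intro h
      exact hn' (mem_filter.mpr ⟨h, (mem_filter.mp hn).2⟩)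
  have hcard := Fmm_card (X := X) hPr hg
  have hfl : ((⌊X⌋₊ : ℕ) : ℝ) ≤ X := Nat.floor_le hX0
  have hmain := coreH Pr g 1 q2 M ⌊X⌋₊ m β A (fun p => (24 * m * b p)⁻¹) b G y 0
    (Fmm Pr g X) Qs hPr le_rfl hq2 hm hβ hA
    (fun p hp => inv_nonneg.mpr (by have := hb p hp; positivity)) hb ?_ hG0 hG1
    (fun S hS => (mem_Fmm.mp hS).1) (fun S hS T hT => Fmm_down hPr hS hT)
    (fun S hS => Nat.le_floor (mem_Fmm.mp hS).2) ?_ ?_ ?_
  · have h1 : ∑ q ∈ Qs, (∏ p ∈ Ug q2 q, (24 * (m : ℝ) * b p)⁻¹) * cellE G y M 1 0 q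
        = (M : ℝ) ^ 2 * ∑ q ∈ Qs, (∏ p ∈ lo g q, (24 * m * b p)⁻¹) * wE S F q := by
      rw [mul_sum]
      refine sum_congr rfl fun q hq => ?_
      rw [hcell, ← (hQs q hq).2.2.1, Ug_hi]
      ring
    rw [h1] at hmain
    have h2 : 8 * ((M : ℝ) / ((1 : ℕ) : ℝ)) ^ 2 * β ^ 2 * (1 + (A / β) ^ (1 / (m : ℝ)))
        = (M : ℝ) ^ 2 * (8 * (β ^ 2 * (1 + (A / β) ^ (1 / (m : ℝ))))) := by
      rw [Nat.cast_one, div_one]; ring
    rw [h2] at hmain
    exact le_of_mul_le_mul_left hmain (by positivity)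
  · intro p hp
    have hbp := hb p hp
    have hb0 : 0 < b p := by linarith
    rw [mul_comm, ← mul_assoc]
    have h1 : (1 + b p) * (12 * (m : ℝ)) * (24 * (m : ℝ) * b p)⁻¹ = (1 + b p) / (2 * b p) := by
      field_simp
      ring
    rw [h1, div_le_one (by positivity)]
    linarith
  · have h1 : (q2 : ℝ) * (⌊X⌋₊ : ℝ) ^ (2 * m + 1) * ((Fmm Pr g X).card : ℝ) ^ (2 * m) ≤ M := by
      refine le_trans ?_ hcap
      have h2 : (⌊X⌋₊ : ℝ) ^ (2 * m + 1) * ((Fmm Pr g X).card : ℝ) ^ (2 * m)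
          ≤ X ^ (2 * m + 1) * X ^ (2 * m) := by
        refine mul_le_mul (pow_le_pow_left₀ (Nat.cast_nonneg _) hfl _)
          (pow_le_pow_left₀ (Nat.cast_nonneg _) (hcard.trans hfl) _) (by positivity)
          (by positivity)
      calc (q2 : ℝ) * (⌊X⌋₊ : ℝ) ^ (2 * m + 1) * ((Fmm Pr g X).card : ℝ) ^ (2 * m)
          = q2 * ((⌊X⌋₊ : ℝ) ^ (2 * m + 1) * ((Fmm Pr g X).card : ℝ) ^ (2 * m)) := by ring
        _ ≤ q2 * (X ^ (2 * m + 1) * X ^ (2 * m)) :=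
            mul_le_mul_of_nonneg_left h2 (Nat.cast_nonneg _)
        _ = q2 * X ^ (4 * m + 1) := by
            rw [← pow_add]; congr 2; ring
    rw [one_mul]
    exact_mod_cast h1
  · intro T hT z _
    rw [hmassG]
    have h1 := hmass T hT z
    rw [one_mul]
    have h2 := mul_le_mul_of_nonneg_left h1 hM0.le
    refine h2.trans (le_of_eq ?_)
    rw [Nat.cast_one, one_mul]
    ring
  · intro q hq
    obtain ⟨h1, h2, h3, h4⟩ := hQs q hq
    refine ⟨h1, Nat.coprime_one_left q, ?_, ?_⟩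
    · rw [← h3]; exact good_hi g Pr h2
    · rw [← h3, Ug_hi, mem_Fmm]
      exact ⟨fun p hp => h2 p (lo_sub g q hp), h4⟩

end Vale.Agent.P042.H892
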