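import Vale.Agent.P042.H892.LVa

/-!
The weights of the top sum in the power regime: typed primes carry radii and occur to the first
power, the other primes carry the factor `δ⁻¹ (p ^ v) ^ c4`.
-/

namespace Vale.Agent.P042.H892

open Finset Vale.Agent.P042 Vale.Agent.P042.H188

set_option linter.unusedSectionVars false

section
variable (tyP : ℕ → Prop) [DecidablePred tyP]

/-- product of the radii of the typed primes -/
noncomputable def omR (R : ℕ → ℝ) (q : ℕ) : ℝ := ∏ p ∈ q.primeFactors.filter tyP, R p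

/-- the untyped part of `q` -/
def unt (q : ℕ) : ℕ := ∏ p ∈ q.primeFactors.filter (fun p => ¬ tyP p), p ^ q.factorization p

/-- the modified weights -/
noncomputable def kwz (R : ℕ → ℝ) (δ c4 : ℝ) (kw : ℕ → ℕ → ℝ) (p v : ℕ) : ℝ :=
  if tyP p then (if v = 1 then R p * kw p 1 else 0)
  else δ⁻¹ * (((p ^ v : ℕ) : ℝ) ^ c4 * kw p v)

/-- exponent bounds -/
def gz (g0 : ℕ) (p : ℕ) : ℕ := if tyP p then 1 else g0

variable {tyP}

lemma kwz_nonneg {R : ℕ → ℝ} {δ c4 : ℝ} {kw : ℕ → ℕ → ℝ} (hR : ∀ p, 0 ≤ R p)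
    (hδ : 0 ≤ δ) (hkw : ∀ p v, 0 ≤ kw p v) (p v : ℕ) : 0 ≤ kwz tyP R δ c4 kw p v := by
  unfold kwz
  split_ifs
  · exact mul_nonneg (hR p) (hkw _ _)
  · exact le_rfl
  · exact mul_nonneg (inv_nonneg.mpr hδ)
      (mul_nonneg (Real.rpow_nonneg (Nat.cast_nonneg _) _) (hkw _ _))

/-- splitting of the product of the modified weights -/
lemma kap_kwz {R : ℕ → ℝ} {δ c4 : ℝ} {kw : ℕ → ℕ → ℝ} {q : ℕ}
    (hq : ∀ p ∈ q.primeFactors, tyP p → q.factorization p = 1) :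
    kapProd (kwz tyP R δ c4 kw) q = omR tyP R q * kapProd kw q *
      ((δ⁻¹) ^ (q.primeFactors.filter (fun p => ¬ tyP p)).card * ((unt tyP q : ℕ) : ℝ) ^ c4) := by
  have h1 : kapProd (kwz tyP R δ c4 kw) q
      = (∏ p ∈ q.primeFactors.filter tyP, (R p * kw p (q.factorization p))) *
        ∏ p ∈ q.primeFactors.filter (fun p => ¬ tyP p),
          (δ⁻¹ * (((p ^ q.factorization p : ℕ) : ℝ) ^ c4 * kw p (q.factorization p))) := by
    unfold kapProd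
    rw [← prod_filter_mul_prod_filter_not q.primeFactors tyP]
    congr 1
    · refine prod_congr rfl fun p hp => ?_
      obtain ⟨h2, h3⟩ := mem_filter.mp hp
      unfold kwz
      rw [if_pos h3, if_pos (hq p h2 h3), hq p h2 h3]
    · refine prod_congr rfl fun p hp => ?_
      unfold kwz
      rw [if_neg (mem_filter.mp hp).2]
  have h2 : kapProd kw q = (∏ p ∈ q.primeFactors.filter tyP, kw p (q.factorization p)) *
      ∏ p ∈ q.primeFactors.filter (fun p => ¬ tyP p), kw p (q.factorization p) := by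
    unfold kapProd
    rw [prod_filter_mul_prod_filter_not]
  have h3 : ((unt tyP q : ℕ) : ℝ) ^ c4
      = ∏ p ∈ q.primeFactors.filter (fun p => ¬ tyP p),
        ((p ^ q.factorization p : ℕ) : ℝ) ^ c4 := by
    unfold unt
    rw [Nat.cast_prod, ← Real.finsetProd_rpow _ _ (fun p _ => Nat.cast_nonneg _)]
  rw [h1, h2, h3, prod_mul_distrib, prod_mul_distrib, prod_mul_distrib, prod_const]
  unfold omR
  ring

/-- no untyped prime: nothing is gained -/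
lemma gain_one {R : ℕ → ℝ} {δ c4 : ℝ} {kw : ℕ → ℕ → ℝ} {q : ℕ}
    (hq : ∀ p ∈ q.primeFactors, tyP p ∧ q.factorization p = 1) :
    omR tyP R q * kapProd kw q = 1 * kapProd (kwz tyP R δ c4 kw) q := by
  have h1 : q.primeFactors.filter (fun p => ¬ tyP p) = ∅ := by
    rw [filter_eq_empty_iff]
    intro p hp h
    exact h (hq p hp).1
  rw [kap_kwz fun p hp _ => (hq p hp).2, one_mul]
  unfold unt
  rw [h1]
  simp

/-- the gain of the untyped part -/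
lemma gain_Z {R : ℕ → ℝ} {δ c4 Z : ℝ} {kw : ℕ → ℕ → ℝ} {q : ℕ} (hR : ∀ p, 0 ≤ R p)
    (hkw : ∀ p v, 0 ≤ kw p v) (hδ : 0 < δ) (hδ1 : δ ≤ 1) (hc : 0 ≤ c4) (hZ : 1 ≤ Z)
    (hq : ∀ p ∈ q.primeFactors, tyP p → q.factorization p = 1) (hZq : Z < (unt tyP q : ℝ)) :
    omR tyP R q * kapProd kw q ≤ (δ * Z ^ (-c4)) * kapProd (kwz tyP R δ c4 kw) q := by
  rw [kap_kwz hq]
  have h0 : 0 ≤ omR tyP R q * kapProd kw q :=
    mul_nonneg (prod_nonneg fun p _ => hR p) (prod_nonneg fun p _ => hkw _ _)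
  have hne : (q.primeFactors.filter (fun p => ¬ tyP p)).Nonempty := by
    rw [nonempty_iff_ne_empty]
    intro h
    unfold unt at hZq
    rw [h, prod_empty, Nat.cast_one] at hZq
    linarith
  have h1 : δ⁻¹ ≤ (δ⁻¹) ^ (q.primeFactors.filter (fun p => ¬ tyP p)).card :=
    le_self_pow₀ (one_le_inv_iff₀.mpr ⟨hδ, hδ1⟩) (card_ne_zero.mpr hne)
  have h2 : Z ^ c4 ≤ ((unt tyP q : ℕ) : ℝ) ^ c4 := Real.rpow_le_rpow (by linarith) hZq.le hc
  have h3 : 1 ≤ (δ * Z ^ (-c4)) *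
      ((δ⁻¹) ^ (q.primeFactors.filter (fun p => ¬ tyP p)).card * ((unt tyP q : ℕ) : ℝ) ^ c4) := by
    have hZc : 0 < Z ^ c4 := Real.rpow_pos_of_pos (by linarith) _
    have e1 : (1 : ℝ) = (δ * Z ^ (-c4)) * (δ⁻¹ * Z ^ c4) := by
      rw [Real.rpow_neg (by linarith)]
      field_simp
    calc (1 : ℝ) = (δ * Z ^ (-c4)) * (δ⁻¹ * Z ^ c4) := e1
      _ ≤ _ := by
        refine mul_le_mul_of_nonneg_left ?_
          (mul_nonneg hδ.le (Real.rpow_nonneg (by linarith) _))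
        exact mul_le_mul h1 h2 hZc.le (by positivity)
  calc omR tyP R q * kapProd kw q = (omR tyP R q * kapProd kw q) * 1 := (mul_one _).symm
    _ ≤ (omR tyP R q * kapProd kw q) * ((δ * Z ^ (-c4)) *
      ((δ⁻¹) ^ (q.primeFactors.filter (fun p => ¬ tyP p)).card *
        ((unt tyP q : ℕ) : ℝ) ^ c4)) := mul_le_mul_of_nonneg_left h3 h0
    _ = _ := by ring

end

/-! ### the scales of the untyped primes -/

/-- geometric sum of the untyped scales -/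
lemma sum_scales {s : ℝ} (hs : 0 < s) {Y N : ℕ} (hY : 1 ≤ Y)
    (hYs : (2 / (Y : ℝ)) ^ s ≤ 1 - (2 : ℝ) ^ (-s)) :
    ∑ k : Fin N, (if Nat.log 2 Y ≤ (k : ℕ) then ((2 : ℝ) ^ (-s)) ^ (k : ℕ) else 0) ≤ 1 := by
  have hx0 : (0 : ℝ) ≤ 2 ^ (-s) := by positivity
  have hx1 : (2 : ℝ) ^ (-s) < 1 := Real.rpow_lt_one_of_one_lt_of_neg (by norm_num) (by linarith)
  rw [Fin.sum_univ_eq_sum_range
    (fun k => if Nat.log 2 Y ≤ k then ((2 : ℝ) ^ (-s)) ^ k else 0) N, ← sum_filter]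
  have h1 : (range N).filter (fun k => Nat.log 2 Y ≤ k) = Ico (Nat.log 2 Y) N := by
    ext k
    rw [mem_filter, mem_range, mem_Ico]
    tauto
  rw [h1]
  refine (geom_sum_Ico_le_of_lt_one hx0 hx1).trans ?_
  rw [div_le_one (by linarith)]
  refine le_trans ?_ hYs
  have hY0 : (0 : ℝ) < Y := by exact_mod_cast hY
  have h2 : (Y : ℝ) < 2 * (2 : ℝ) ^ (Nat.log 2 Y) := by
    have := Nat.lt_pow_succ_log_self (b := 2) (by norm_num) Y
    have h3 : (Y : ℝ) < ((2 ^ (Nat.log 2 Y).succ : ℕ) : ℝ) := by exact_mod_cast this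
    rw [Nat.cast_pow, pow_succ] at h3
    push_cast at h3
    linarith
  have h3 : ((2 : ℝ) ^ (-s)) ^ Nat.log 2 Y = (((2 : ℝ) ^ (Nat.log 2 Y))⁻¹) ^ s := by
    rw [← Real.rpow_natCast ((2 : ℝ) ^ (-s)), ← Real.rpow_mul (by norm_num),
      Real.inv_rpow (by positivity), ← Real.rpow_neg (by positivity),
      ← Real.rpow_natCast (2 : ℝ) (Nat.log 2 Y), ← Real.rpow_mul (by norm_num)]
    congr 1
    ring
  rw [h3]
  refine Real.rpow_le_rpow (by positivity) ?_ hs.le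
  rw [inv_eq_one_div, div_le_div_iff₀ (by positivity) hY0]
  linarith

section
variable {J : Type*} [Fintype J] [DecidableEq J]

/-- scale of a prime: the type for the typed ones, the dyadic size for the others -/
def scz (tyP : ℕ → Prop) [DecidablePred tyP] (ty : ℕ → J) (N : ℕ) (p : ℕ) : J ⊕ Fin (N + 1) :=
  if tyP p then Sum.inl (ty p)
  else Sum.inr ⟨min (Nat.log 2 p) N, Nat.lt_succ_of_le (min_le_right _ _)⟩

/-- length of a scale -/
noncomputable def ellz (ell : J → ℝ) (g0 N : ℕ) : J ⊕ Fin (N + 1) → ℝ :=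
  Sum.elim ell (fun k => g0 * (((k : ℕ) : ℝ) + 1) * Real.log 2)

/-- cost of a scale -/
noncomputable def Xz (X : J → ℝ) (s : ℝ) (Y N : ℕ) : J ⊕ Fin (N + 1) → ℝ :=
  Sum.elim X (fun k => if Nat.log 2 Y ≤ (k : ℕ) then ((2 : ℝ) ^ (-s)) ^ (k : ℕ) else 0)

/-- **the weighted top sum**: radii on the typed primes, gain `gn` -/
theorem topW {tyP : ℕ → Prop} [DecidablePred tyP] {Pr : Finset ℕ} {g0 N Y : ℕ}
    {Cap K A : ℝ} {En : ℕ → ℝ} {MB : ℕ → ℝ → Prop}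
    (hcls : ClsIneq Pr (gz tyP g0) Cap K A En MB) (hEn : ∀ q, 0 ≤ En q) (hK : 0 ≤ K) (hA : 1 ≤ A)
    (hPr : ∀ p ∈ Pr, p.Prime) {kw : ℕ → ℕ → ℝ} (hkw : ∀ p v, 0 ≤ kw p v)
    {R : ℕ → ℝ} (hR : ∀ p, 0 ≤ R p)
    {B τ Θ σ H M0 δ c4 s gn : ℝ} (hB : 0 < B) (hτ : 0 ≤ τ) (hΘ : 0 ≤ Θ) (hσ0 : 0 ≤ σ)
    (hσ : 2 * Real.log A ≤ σ * Θ) (hg0 : 2 ≤ g0) (hδ : 0 < δ) (hs : 0 < s) (hgn : 0 ≤ gn)
    (hY1 : 1 ≤ Y) {ty : ℕ → J} {ell X : J → ℝ} (h1 : ∀ j, 1 ≤ ell j) (hX0 : ∀ j, 0 ≤ X j)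
    (hN : ∀ p ∈ Pr, Nat.log 2 p ≤ N) (hYp : ∀ p ∈ Pr, ¬ tyP p → Y ≤ p)
    (hell : ∀ p ∈ Pr, tyP p → Real.log p ≤ ell (ty p)) (M2 : Finset ℕ)
    (hQ : ∀ q ∈ M2, 1 ≤ q ∧ (∀ p ∈ q.primeFactors, p ∈ Pr) ∧
      2 * lng (ellz ell g0 N) (typ (scz tyP ty N) (lo (gz tyP g0) q)) ≤ Θ ∧
      (hi (gz tyP g0) q : ℝ) ≤ M0)
    (hcap : M0 * Real.exp (5 * Θ) ≤ Cap)
    (hmass : ∀ d : ℕ, 1 ≤ d → (d : ℝ) ≤ M0 * Real.exp (Θ / 2) → (∀ p ∈ d.primeFactors, p ∈ Pr) →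
      MB d (B * (d : ℝ) ^ τ))
    (htyp : ∀ p ∈ Pr, tyP p →
      24 * Θ * (R p * kw p 1 * (p : ℝ) ^ τ) * Real.exp (σ * ell (ty p)) ≤ X (ty p))
    (hunt : ∀ p ∈ Pr, ¬ tyP p → ∀ v, 1 ≤ v → v ≤ g0 →
      24 * Θ * (δ⁻¹ * (((p ^ v : ℕ) : ℝ) ^ c4 * kw p v) * ((p ^ g0 : ℕ) : ℝ) ^ τ) *
        (2 * (p : ℝ)) ^ (σ * g0) ≤ (p : ℝ) ^ (-s))
    (hYs : (2 / (Y : ℝ)) ^ s ≤ 1 - (2 : ℝ) ^ (-s))
    (hH : ∑ h ∈ M2.image (hi (gz tyP g0)), kapProd (kwz tyP R δ c4 kw) h * (h : ℝ) ^ (2 * τ) ≤ H)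
    (hgain : ∀ q ∈ M2, omR tyP R q * kapProd kw q ≤ gn * kapProd (kwz tyP R δ c4 kw) q) :
    ∑ q ∈ M2, omR tyP R q * kapProd kw q * En q
      ≤ gn * (4 * K * (B ^ 2 + 1) * H * Real.exp (∑ j, X j + 1)) := by
  have hmain := topF (J := J ⊕ Fin (N + 1)) hcls hEn hK hA hPr
    (kw := kwz tyP R δ c4 kw) (fun p v => kwz_nonneg hR hδ.le hkw p v) hB hτ hΘ hσ0 hσ
    (sc := scz tyP ty N) (ell := ellz ell g0 N) (X := Xz X s Y N) ?_ ?_ M2 hQ hcap hmass ?_ ?_ hH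
  · have h2 : ∑ j, Xz X s Y N j ≤ ∑ j, X j + 1 := by
      unfold Xz
      rw [Fintype.sum_sum_type]
      simp only [Sum.elim_inl, Sum.elim_inr]
      have := sum_scales (N := N + 1) hs hY1 hYs
      linarith
    have hH0 : 0 ≤ H := by
      refine le_trans (sum_nonneg fun h _ => ?_) hH
      exact mul_nonneg (prod_nonneg fun p _ => kwz_nonneg hR hδ.le hkw _ _)
        (Real.rpow_nonneg (Nat.cast_nonneg _) _)
    have h3 : ∑ q ∈ M2, omR tyP R q * kapProd kw q * En q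
        ≤ gn * ∑ q ∈ M2, kapProd (kwz tyP R δ c4 kw) q * En q := by
      rw [mul_sum]
      refine sum_le_sum fun q hq => ?_
      rw [← mul_assoc]
      exact mul_le_mul_of_nonneg_right (hgain q hq) (hEn q)
    refine h3.trans (mul_le_mul_of_nonneg_left (hmain.trans ?_) hgn)
    refine mul_le_mul_of_nonneg_left (Real.exp_le_exp.mpr h2) ?_
    positivity
  · intro j
    rcases j with j | k
    · exact h1 j
    · show 1 ≤ (g0 : ℝ) * (((k : ℕ) : ℝ) + 1) * Real.log 2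
      have h2 : (2 : ℝ) ≤ g0 := by exact_mod_cast hg0
      have h3 : (0 : ℝ) ≤ ((k : ℕ) : ℝ) := Nat.cast_nonneg _
      have h4 := Real.log_two_gt_d9
      have h5 : (2 : ℝ) ≤ (g0 : ℝ) * (((k : ℕ) : ℝ) + 1) := by nlinarith
      have h6 := mul_le_mul_of_nonneg_right h5 (Real.log_nonneg (by norm_num : (1 : ℝ) ≤ 2))
      linarith
  · intro p hp
    unfold gz scz
    split_ifs with h
    · show ((1 : ℕ) : ℝ) * Real.log p ≤ ell (ty p)
      rw [Nat.cast_one, one_mul]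
      exact hell p hp h
    · show (g0 : ℝ) * Real.log p ≤ g0 * (((min (Nat.log 2 p) N : ℕ) : ℝ) + 1) * Real.log 2
      rw [min_eq_left (hN p hp), mul_assoc]
      refine mul_le_mul_of_nonneg_left ?_ (Nat.cast_nonneg _)
      have hp0 : (0 : ℝ) < p := by exact_mod_cast (hPr p hp).pos
      have h2 : (p : ℝ) ≤ (2 : ℝ) ^ (Nat.log 2 p + 1) := by
        have := (Nat.lt_pow_succ_log_self (b := 2) (by norm_num) p).le
        exact_mod_cast this
      have h3 := Real.log_le_log hp0 h2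
      rw [Real.log_pow] at h3
      push_cast at h3
      exact h3
  · intro j
    rcases j with j | k
    · exact hX0 j
    · show 0 ≤ if Nat.log 2 Y ≤ (k : ℕ) then ((2 : ℝ) ^ (-s)) ^ (k : ℕ) else 0
      split_ifs
      · positivity
      · exact le_rfl
  · intro p hp v hv1 hvg
    by_cases h : tyP p
    · have e1 : gz tyP g0 p = 1 := by unfold gz; rw [if_pos h]
      have e2 : scz tyP ty N p = Sum.inl (ty p) := by unfold scz; rw [if_pos h]
      rw [e1] at hvg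
      have hv : v = 1 := by omega
      have e3 : kwz tyP R δ c4 kw p v = R p * kw p 1 := by
        unfold kwz; rw [if_pos h, if_pos hv]
      rw [e1, e2, e3, pow_one]
      exact htyp p hp h
    · have e1 : gz tyP g0 p = g0 := by unfold gz; rw [if_neg h]
      have e2 : scz tyP ty N p
          = Sum.inr ⟨min (Nat.log 2 p) N, Nat.lt_succ_of_le (min_le_right _ _)⟩ := by
        unfold scz; rw [if_neg h]
      rw [e1] at hvg
      have e3 : kwz tyP R δ c4 kw p v = δ⁻¹ * (((p ^ v : ℕ) : ℝ) ^ c4 * kw p v) := by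
        unfold kwz; rw [if_neg h]
      rw [e1, e2, e3]
      show _ ≤ if Nat.log 2 Y ≤ (min (Nat.log 2 p) N) then
        ((2 : ℝ) ^ (-s)) ^ (min (Nat.log 2 p) N) else 0
      show 24 * Θ * (δ⁻¹ * (((p ^ v : ℕ) : ℝ) ^ c4 * kw p v) * ((p ^ g0 : ℕ) : ℝ) ^ τ) *
        Real.exp (σ * (g0 * (((min (Nat.log 2 p) N : ℕ) : ℝ) + 1) * Real.log 2)) ≤ _
      rw [min_eq_left (hN p hp), if_pos (Nat.log_mono_right (hYp p hp h))]
      have hp0 : (0 : ℝ) < p := by exact_mod_cast (hPr p hp).pos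
      have h2 : (2 : ℝ) ^ (Nat.log 2 p) ≤ p := by
        exact_mod_cast Nat.pow_log_le_self 2 (hPr p hp).pos.ne'
      have h3 : Real.exp (σ * (g0 * (((Nat.log 2 p : ℕ) : ℝ) + 1) * Real.log 2))
          ≤ (2 * (p : ℝ)) ^ (σ * g0) := by
        rw [Real.rpow_def_of_pos (by positivity)]
        refine Real.exp_le_exp.mpr ?_
        have h4 : (((Nat.log 2 p : ℕ) : ℝ) + 1) * Real.log 2 ≤ Real.log (2 * p) := by
          have h5 : (2 : ℝ) ^ (Nat.log 2 p + 1) ≤ 2 * p := by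
            rw [pow_succ]; linarith
          have h6 := Real.log_le_log (by positivity) h5
          rw [Real.log_pow] at h6
          push_cast at h6
          exact h6
        have h7 : 0 ≤ σ * g0 := mul_nonneg hσ0 (Nat.cast_nonneg _)
        nlinarith
      have h4 : (p : ℝ) ^ (-s) ≤ ((2 : ℝ) ^ (-s)) ^ (Nat.log 2 p) := by
        rw [← Real.rpow_natCast ((2 : ℝ) ^ (-s)), ← Real.rpow_mul (by norm_num),
          mul_comm (-s), Real.rpow_mul (by norm_num), Real.rpow_natCast]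
        exact Real.rpow_le_rpow_of_nonpos (by positivity) h2 (by linarith)
      refine le_trans ?_ ((hunt p hp h v hv1 hvg).trans h4)
      refine mul_le_mul_of_nonneg_left h3 ?_
      have h5 := hkw p v
      have h6 : 0 ≤ ((p ^ g0 : ℕ) : ℝ) ^ τ := Real.rpow_nonneg (Nat.cast_nonneg _) _
      have h7 : 0 ≤ ((p ^ v : ℕ) : ℝ) ^ c4 := Real.rpow_nonneg (Nat.cast_nonneg _) _
      positivity

end

end Vale.Agent.P042.H892
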