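import Vale.Agent.P042.H892.TopF1
import Vale.Agent.P042.H188.TopHi

/-!
P042, top scales in the power regime: the sum over ALL moduli `q` with primes in `Pr` of
`kapProd kw q * En q` from one class inequality (188's `coreH`, or its version with a weight).
No smallness of a single leg is needed: the moment of the level inequality is chosen by the size
of the class (`m ~ Θ / log q`), so that `d` legs get a factor `1 / d ^ d`, and the sum is
`exp (∑ j, X j)`.
-/

namespace Vale.Agent.P042.H892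

open Finset Vale.Agent.P042 Vale.Agent.P042.H188

set_option linter.unusedSectionVars false

/-- the class inequality -/
def ClsIneq (Pr : Finset ℕ) (g : ℕ → ℕ) (Cap K A : ℝ) (En : ℕ → ℝ) (MB : ℕ → ℝ → Prop) : Prop :=
  ∀ (q2 m : ℕ) (X β : ℝ) (b : ℕ → ℝ) (Qs : Finset ℕ), 1 ≤ q2 → 2 ≤ m → 1 ≤ X → 0 < β →
    (∀ p ∈ Pr, 1 ≤ b p) → (q2 : ℝ) * X ^ (4 * m + 1) ≤ Cap →
    (∀ S ∈ Fmm Pr g X, MB (q2 * ∏ p ∈ S, p ^ g p) (β * ∏ p ∈ S, b p)) →
    (∀ q ∈ Qs, 1 ≤ q ∧ (∀ p ∈ q.primeFactors, p ∈ Pr) ∧ hi g q = q2 ∧ (spn g q : ℝ) ≤ X) →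
    ∑ q ∈ Qs, (∏ p ∈ lo g q, (24 * m * b p)⁻¹) * En q ≤ K * (β ^ 2 * (1 + (A / β) ^ (1 / (m : ℝ))))

section
variable {J : Type*} [Fintype J] [DecidableEq J]

/-- length of a type -/
noncomputable def lng (ell : J → ℝ) (t : J → ℕ) : ℝ := ∑ j, (t j : ℝ) * ell j

lemma deg_le_lng {ell : J → ℝ} (h1 : ∀ j, 1 ≤ ell j) (t : J → ℕ) : (deg t : ℝ) ≤ lng ell t := by
  unfold deg lng
  push_cast
  refine sum_le_sum fun j _ => ?_
  have : (0 : ℝ) ≤ t j := Nat.cast_nonneg _
  nlinarith [h1 j]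

lemma lng_zero (ell : J → ℝ) : lng ell (0 : J → ℕ) = 0 := by simp [lng]

lemma deg_pos_of {t : J → ℕ} (h : t ≠ 0) : 1 ≤ deg t := by
  rcases Nat.eq_zero_or_pos (deg t) with h0 | h0
  · exfalso
    apply h
    funext j
    have := (sum_eq_zero_iff (f := t) (s := univ)).mp h0 j (mem_univ j)
    simpa using this
  · exact h0

lemma exp_lng {ell : J → ℝ} (σ : ℝ) (t : J → ℕ) :
    Real.exp (σ * lng ell t) = ∏ j, Real.exp (σ * ell j) ^ t j := by
  unfold lng
  rw [mul_sum, Real.exp_sum]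
  refine prod_congr rfl fun j _ => ?_
  rw [← Real.exp_nat_mul]
  congr 1
  ring

/-- the moment of a class -/
noncomputable def mom (Θ A : ℝ) (ell : J → ℝ) (t : J → ℕ) : ℕ :=
  if t = 0 then max 2 ⌈Real.log A⌉₊ else ⌊Θ / lng ell t⌋₊

lemma mom_two {Θ A : ℝ} {ell : J → ℝ} (h1 : ∀ j, 1 ≤ ell j) {t : J → ℕ}
    (hl : 2 * lng ell t ≤ Θ) : 2 ≤ mom Θ A ell t := by
  unfold mom
  split_ifs with h
  · exact le_max_left _ _
  · have h2 : (1 : ℝ) ≤ deg t := by exact_mod_cast deg_pos_of h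
    have h3 := deg_le_lng h1 t
    have h4 : 0 < lng ell t := by linarith
    refine Nat.le_floor ?_
    rw [le_div_iff₀ h4]
    push_cast
    linarith

/-- the bound of the moment factor -/
lemma rpow_mom {Θ A σ B : ℝ} {ell : J → ℝ} (h1 : ∀ j, 1 ≤ ell j) {t : J → ℕ}
    (hl : 2 * lng ell t ≤ Θ) (hA : 1 ≤ A) (hσ0 : 0 ≤ σ) (hσ : 2 * Real.log A ≤ σ * Θ)
    (hB : 0 < B) : B ^ 2 * (1 + (A / B) ^ (1 / (mom Θ A ell t : ℝ)))
      ≤ 4 * (B ^ 2 + 1) * Real.exp (σ * lng ell t) := by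
  have hm2 := mom_two (A := A) h1 hl
  have hm0 : (0 : ℝ) < mom Θ A ell t := by
    have : (2 : ℝ) ≤ mom Θ A ell t := by exact_mod_cast hm2
    linarith
  have hm1 : 1 / (mom Θ A ell t : ℝ) ≤ 1 := by
    rw [div_le_one hm0]
    have : (2 : ℝ) ≤ mom Θ A ell t := by exact_mod_cast hm2
    linarith
  have hA0 : 0 < A := by linarith
  have hlogA : 0 ≤ Real.log A := Real.log_nonneg hA
  have hl0 : 0 ≤ lng ell t := by
    have := deg_le_lng h1 t
    have h2 : (0 : ℝ) ≤ deg t := Nat.cast_nonneg _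
    linarith
  have hΘ0 : 0 ≤ Θ := by linarith
  -- `A ^ (1/m) ≤ 3 exp (σ λ)`
  have hAm : A ^ (1 / (mom Θ A ell t : ℝ)) ≤ 3 * Real.exp (σ * lng ell t) := by
    rw [Real.rpow_def_of_pos hA0]
    by_cases h : t = 0
    · have h2 : Real.log A * (1 / (mom Θ A ell t : ℝ)) ≤ 1 := by
        rw [mul_one_div, div_le_one hm0]
        unfold mom
        rw [if_pos h]
        have h3 : Real.log A ≤ (⌈Real.log A⌉₊ : ℝ) := Nat.le_ceil _
        have h4 : ((⌈Real.log A⌉₊ : ℕ) : ℝ) ≤ ((max 2 ⌈Real.log A⌉₊ : ℕ) : ℝ) := by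
          exact_mod_cast le_max_right _ _
        linarith
      have h5 : Real.exp (σ * lng ell t) = 1 := by
        rw [h, lng_zero, mul_zero, Real.exp_zero]
      rw [h5, mul_one]
      calc Real.exp (Real.log A * (1 / (mom Θ A ell t : ℝ))) ≤ Real.exp 1 := Real.exp_le_exp.mpr h2
        _ ≤ 3 := by
          have := Real.exp_one_lt_d9
          linarith
    · have h2 : (1 : ℝ) ≤ deg t := by exact_mod_cast deg_pos_of h
      have h3 := deg_le_lng h1 t
      have h4 : 0 < lng ell t := by linarith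
      have hΘ : 0 < Θ := by linarith
      have h6 : Θ / (2 * lng ell t) ≤ mom Θ A ell t := by
        unfold mom
        rw [if_neg h]
        have h7 : Θ / lng ell t < (⌊Θ / lng ell t⌋₊ : ℝ) + 1 := Nat.lt_floor_add_one _
        have h8 : 2 ≤ Θ / lng ell t := by
          rw [le_div_iff₀ h4]; linarith
        have h9 : Θ / (2 * lng ell t) = Θ / lng ell t / 2 := by
          field_simp
        rw [h9]
        linarith
      have h10 : Real.log A * (1 / (mom Θ A ell t : ℝ)) ≤ σ * lng ell t := by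
        rw [mul_one_div, div_le_iff₀ hm0]
        have hpos : 0 < Θ / (2 * lng ell t) := by positivity
        have h11 : Real.log A = (2 * lng ell t * Real.log A / Θ) * (Θ / (2 * lng ell t)) := by
          field_simp
        have h12 : 2 * lng ell t * Real.log A / Θ ≤ σ * lng ell t := by
          rw [div_le_iff₀ hΘ]
          nlinarith
        have h13 : 0 ≤ σ * lng ell t := by
          refine le_trans ?_ h12
          positivity
        rw [h11]
        exact mul_le_mul h12 h6 hpos.le h13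
      calc Real.exp (Real.log A * (1 / (mom Θ A ell t : ℝ)))
          ≤ Real.exp (σ * lng ell t) := Real.exp_le_exp.mpr h10
        _ ≤ 3 * Real.exp (σ * lng ell t) := by
          have := Real.exp_pos (σ * lng ell t)
          linarith
  have hE1 : 1 ≤ Real.exp (σ * lng ell t) := Real.one_le_exp (mul_nonneg hσ0 hl0)
  have hx0 : 0 < 1 / (mom Θ A ell t : ℝ) := by positivity
  have hBm : B ^ 2 * (A / B) ^ (1 / (mom Θ A ell t : ℝ))
      ≤ (B ^ 2 + 1) * A ^ (1 / (mom Θ A ell t : ℝ)) := by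
    rw [Real.div_rpow hA0.le hB.le]
    have hAx : 0 < A ^ (1 / (mom Θ A ell t : ℝ)) := Real.rpow_pos_of_pos hA0 _
    have hBx : 0 < B ^ (1 / (mom Θ A ell t : ℝ)) := Real.rpow_pos_of_pos hB _
    have h2 : B ^ 2 ≤ (B ^ 2 + 1) * B ^ (1 / (mom Θ A ell t : ℝ)) := by
      rcases le_total 1 B with h3 | h3
      · have h4 : 1 ≤ B ^ (1 / (mom Θ A ell t : ℝ)) := Real.one_le_rpow h3 hx0.le
        nlinarith [sq_nonneg B]
      · have h4 : B ≤ B ^ (1 / (mom Θ A ell t : ℝ)) := by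
          calc B = B ^ (1 : ℝ) := (Real.rpow_one B).symm
            _ ≤ B ^ (1 / (mom Θ A ell t : ℝ)) :=
              Real.rpow_le_rpow_of_exponent_ge hB h3 hm1
        nlinarith [sq_nonneg B]
    rw [mul_div_assoc', div_le_iff₀ hBx]
    calc B ^ 2 * A ^ (1 / (mom Θ A ell t : ℝ))
        ≤ ((B ^ 2 + 1) * B ^ (1 / (mom Θ A ell t : ℝ))) * A ^ (1 / (mom Θ A ell t : ℝ)) :=
          mul_le_mul_of_nonneg_right h2 hAx.le
      _ = _ := by ring
  have h20 : 0 ≤ B ^ 2 + 1 := by positivity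
  have h21 := mul_le_mul_of_nonneg_left hAm h20
  have h22 : B ^ 2 ≤ (B ^ 2 + 1) * Real.exp (σ * lng ell t) := by nlinarith [sq_nonneg B]
  calc B ^ 2 * (1 + (A / B) ^ (1 / (mom Θ A ell t : ℝ)))
      = B ^ 2 + B ^ 2 * (A / B) ^ (1 / (mom Θ A ell t : ℝ)) := by ring
    _ ≤ (B ^ 2 + 1) * Real.exp (σ * lng ell t) + (B ^ 2 + 1) * (3 * Real.exp (σ * lng ell t)) :=
        add_le_add h22 (hBm.trans h21)
    _ = _ := by ring

/-- the factor of the weights in a class -/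
lemma prod_le_class {Θ A : ℝ} {ell : J → ℝ} (h1 : ∀ j, 1 ≤ ell j) {sc : ℕ → J} {S : Finset ℕ}
    (hΘ : 0 ≤ Θ) {y : ℕ → ℝ} {Y : J → ℝ} (hy0 : ∀ p ∈ S, 0 ≤ y p)
    (hY : ∀ p ∈ S, 24 * Θ * y p ≤ Y (sc p)) :
    ∏ p ∈ S, (24 * (mom Θ A ell (typ sc S) : ℝ) * y p)
      ≤ (∏ j, Y j ^ typ sc S j) / (deg (typ sc S) : ℝ) ^ deg (typ sc S) := by
  rcases S.eq_empty_or_nonempty with rfl | hne
  · have h2 : typ sc (∅ : Finset ℕ) = 0 := by
      funext j; simp [typ]
    rw [h2]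
    simp [deg]
  · set t := typ sc S with ht
    have hd : deg t = S.card := deg_typ sc S
    have hd1 : (1 : ℝ) ≤ deg t := by
      rw [hd]; exact_mod_cast hne.card_pos
    have ht0 : t ≠ 0 := by
      intro h0
      rw [h0] at hd1
      simp [deg] at hd1
      linarith
    have h3 := deg_le_lng h1 t
    have h4 : 0 < lng ell t := by linarith
    have hm : (mom Θ A ell t : ℝ) ≤ Θ / deg t := by
      unfold mom
      rw [if_neg ht0]
      refine (Nat.floor_le (div_nonneg hΘ h4.le)).trans ?_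
      exact div_le_div_of_nonneg_left hΘ (by linarith) h3
    calc ∏ p ∈ S, (24 * (mom Θ A ell t : ℝ) * y p)
        ≤ ∏ p ∈ S, (Y (sc p) / deg t) := by
          refine prod_le_prod (fun p hp => ?_) fun p hp => ?_
          · exact mul_nonneg (by positivity) (hy0 p hp)
          · rw [le_div_iff₀ (by linarith : (0 : ℝ) < deg t)]
            refine le_trans ?_ (hY p hp)
            have h5 : (mom Θ A ell t : ℝ) * deg t ≤ Θ := by
              rwa [le_div_iff₀ (by linarith : (0 : ℝ) < deg t)] at hm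
            have h6 := mul_le_mul_of_nonneg_right h5 (hy0 p hp)
            linarith
      _ = (∏ p ∈ S, Y (sc p)) / (deg t : ℝ) ^ S.card := by
          rw [prod_div_distrib, prod_const]
      _ = (∏ j, Y j ^ t j) / (deg t : ℝ) ^ deg t := by
          rw [prod_typ sc S Y, hd]

/-- **the top sum, power regime**: all moduli with primes in `Pr`; every leg of scale `j` costs
`X j`, `d` legs gain `1 / d ^ d`. -/
theorem topF {Pr : Finset ℕ} {g : ℕ → ℕ} {Cap K A : ℝ} {En : ℕ → ℝ} {MB : ℕ → ℝ → Prop}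
    (hcls : ClsIneq Pr g Cap K A En MB) (hEn : ∀ q, 0 ≤ En q) (hK : 0 ≤ K) (hA : 1 ≤ A)
    (hPr : ∀ p ∈ Pr, p.Prime) {kw : ℕ → ℕ → ℝ} (hkw : ∀ p v, 0 ≤ kw p v)
    {B τ Θ σ H M0 : ℝ} (hB : 0 < B) (hτ : 0 ≤ τ) (hΘ : 0 ≤ Θ) (hσ0 : 0 ≤ σ)
    (hσ : 2 * Real.log A ≤ σ * Θ) {sc : ℕ → J} {ell X : J → ℝ} (h1 : ∀ j, 1 ≤ ell j)
    (hell : ∀ p ∈ Pr, g p * Real.log p ≤ ell (sc p)) (QQ : Finset ℕ)
    (hQ : ∀ q ∈ QQ, 1 ≤ q ∧ (∀ p ∈ q.primeFactors, p ∈ Pr) ∧
      2 * lng ell (typ sc (lo g q)) ≤ Θ ∧ (hi g q : ℝ) ≤ M0)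
    (hcap : M0 * Real.exp (5 * Θ) ≤ Cap)
    (hmass : ∀ d : ℕ, 1 ≤ d → (d : ℝ) ≤ M0 * Real.exp (Θ / 2) → (∀ p ∈ d.primeFactors, p ∈ Pr) →
      MB d (B * (d : ℝ) ^ τ))
    (hX0 : ∀ j, 0 ≤ X j)
    (hX : ∀ p ∈ Pr, ∀ v, 1 ≤ v → v ≤ g p →
      24 * Θ * (kw p v * ((p ^ g p : ℕ) : ℝ) ^ τ) * Real.exp (σ * ell (sc p)) ≤ X (sc p))
    (hH : ∑ h ∈ QQ.image (hi g), kapProd kw h * (h : ℝ) ^ (2 * τ) ≤ H) :
    ∑ q ∈ QQ, kapProd kw q * En q ≤ 4 * K * (B ^ 2 + 1) * H * Real.exp (∑ j, X j) := by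
  classical
  obtain ⟨b, hb⟩ : ∃ b : ℕ → ℝ, b = fun p => ((p ^ g p : ℕ) : ℝ) ^ τ := ⟨_, rfl⟩
  have hpg : ∀ p ∈ Pr, (1 : ℝ) ≤ ((p ^ g p : ℕ) : ℝ) := fun p hp => by
    exact_mod_cast Nat.one_le_pow _ _ (hPr p hp).pos
  have hb1 : ∀ p ∈ Pr, 1 ≤ b p := fun p hp => by
    rw [hb]; exact Real.one_le_rpow (hpg p hp) hτ
  obtain ⟨Y, hY⟩ : ∃ Y : J → ℝ, Y = fun j => X j * Real.exp (-(σ * ell j)) := ⟨_, rfl⟩
  have hY0 : ∀ j, 0 ≤ Y j := fun j => by rw [hY]; exact mul_nonneg (hX0 j) (Real.exp_nonneg _)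
  have hkP : ∀ q, 0 ≤ kapProd kw q := fun q => prod_nonneg fun p _ => hkw _ _
  have hM0 : ∀ q ∈ QQ, 1 ≤ M0 := fun q hq => by
    refine le_trans ?_ (hQ q hq).2.2.2
    exact_mod_cast hi_pos g q
  -- one class
  obtain ⟨cl, hcl⟩ : ∃ cl : ℕ → ℕ × (J → ℕ), cl = fun q => (hi g q, typ sc (lo g q)) := ⟨_, rfl⟩
  have hclass : ∀ c ∈ QQ.image cl, ∑ q ∈ QQ.filter (fun q => cl q = c), kapProd kw q * En q
      ≤ (kapProd kw c.1 * (c.1 : ℝ) ^ (2 * τ)) *
        ((∏ j, X j ^ c.2 j) / (deg c.2 : ℝ) ^ deg c.2) * (4 * K * (B ^ 2 + 1)) := by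
    intro c hc
    obtain ⟨q0, hq0, hq0c⟩ := mem_image.mp hc
    obtain ⟨h, t⟩ := c
    have e1 : hi g q0 = h := by rw [hcl] at hq0c; exact congrArg Prod.fst hq0c
    have e2 : typ sc (lo g q0) = t := by rw [hcl] at hq0c; exact congrArg Prod.snd hq0c
    have hQ0 := hQ q0 hq0
    have hh1 : 1 ≤ h := by rw [← e1]; exact hi_pos g q0
    have hhr : (1 : ℝ) ≤ (h : ℝ) := by exact_mod_cast hh1
    have hl : 2 * lng ell t ≤ Θ := by rw [← e2]; exact hQ0.2.2.1
    have hhM : (h : ℝ) ≤ M0 := by rw [← e1]; exact hQ0.2.2.2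
    have hl0 : 0 ≤ lng ell t := by
      have := deg_le_lng h1 t
      have h2 : (0 : ℝ) ≤ deg t := Nat.cast_nonneg _
      linarith
    have hm2 := mom_two (A := A) (t := t) h1 hl
    have hhτ : 1 ≤ (h : ℝ) ^ τ := Real.one_le_rpow hhr hτ
    have hβ : 0 < B * (h : ℝ) ^ τ := mul_pos hB (zero_lt_one.trans_le hhτ)
    have hmL : (mom Θ A ell t : ℝ) * lng ell t ≤ Θ := by
      by_cases ht : t = 0
      · rw [ht, lng_zero, mul_zero]; exact hΘ
      · have h2 : (1 : ℝ) ≤ deg t := by exact_mod_cast deg_pos_of ht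
        have h3 := deg_le_lng h1 t
        have h4 : 0 < lng ell t := by linarith
        have h5 : (mom Θ A ell t : ℝ) ≤ Θ / lng ell t := by
          unfold mom
          rw [if_neg ht]
          exact Nat.floor_le (div_nonneg hΘ h4.le)
        rwa [le_div_iff₀ h4] at h5
    have hX1 : 1 ≤ Real.exp (lng ell t) := Real.one_le_exp hl0
    have hcapc : (h : ℝ) * Real.exp (lng ell t) ^ (4 * mom Θ A ell t + 1) ≤ Cap := by
      refine le_trans ?_ hcap
      rw [← Real.exp_nat_mul]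
      refine mul_le_mul hhM (Real.exp_le_exp.mpr ?_) (Real.exp_nonneg _) (by linarith)
      push_cast
      nlinarith
    have hFm : ∀ S ∈ Fmm Pr g (Real.exp (lng ell t)),
        MB (h * ∏ p ∈ S, p ^ g p) (B * (h : ℝ) ^ τ * ∏ p ∈ S, b p) := by
      intro S hS
      obtain ⟨hSP, hSX⟩ := mem_Fmm.mp hS
      have hSpos : 0 < ∏ p ∈ S, p ^ g p := prod_pos fun p hp => pow_pos (hPr p (hSP hp)).pos _
      have h2 := hmass (h * ∏ p ∈ S, p ^ g p) (Nat.mul_pos hh1 hSpos) ?_ ?_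
      · have h3 : B * (((h * ∏ p ∈ S, p ^ g p : ℕ) : ℝ)) ^ τ
            = B * (h : ℝ) ^ τ * ∏ p ∈ S, b p := by
          rw [Nat.cast_mul, Real.mul_rpow (by linarith) (Nat.cast_nonneg _), ← mul_assoc]
          congr 1
          rw [Nat.cast_prod, ← Real.finset_prod_rpow S _ (fun p _ => Nat.cast_nonneg _), hb]
        rw [h3] at h2
        exact h2
      · rw [Nat.cast_mul]
        refine mul_le_mul hhM (hSX.trans (Real.exp_le_exp.mpr (by linarith))) (Nat.cast_nonneg _)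
          (by linarith)
      · intro p hp
        have hpp := Nat.prime_of_mem_primeFactors hp
        have hpd := Nat.dvd_of_mem_primeFactors hp
        rcases (Nat.Prime.dvd_mul hpp).mp hpd with h3 | h3
        · have h4 : p ∈ (hi g q0).primeFactors := by
            rw [e1]
            exact Nat.mem_primeFactors.mpr ⟨hpp, h3, by omega⟩
          rw [hi_pf] at h4
          exact hQ0.2.1 p (mem_filter.mp h4).1
        · obtain ⟨r, hr, h4⟩ := (hpp.prime.dvd_finset_prod_iff _).1 h3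
          have h5 := hpp.dvd_of_dvd_pow h4
          rw [(Nat.prime_dvd_prime_iff_eq hpp (hPr r (hSP hr))).1 h5]
          exact hSP hr
    have hmain := hcls h (mom Θ A ell t) (Real.exp (lng ell t)) (B * (h : ℝ) ^ τ) b
      (QQ.filter fun q => cl q = (h, t)) hh1 hm2 hX1 hβ hb1 hcapc hFm ?_
    swap
    · intro q hq
      obtain ⟨hqQ, hqc⟩ := mem_filter.mp hq
      have e3 : hi g q = h := by rw [hcl] at hqc; exact congrArg Prod.fst hqc
      have e4 : typ sc (lo g q) = t := by rw [hcl] at hqc; exact congrArg Prod.snd hqc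
      obtain ⟨hq1, hq2, -, -⟩ := hQ q hqQ
      refine ⟨hq1, hq2, e3, ?_⟩
      have h2 : (spn g q : ℝ) = Real.exp (∑ p ∈ lo g q, (g p : ℝ) * Real.log p) := by
        unfold spn
        rw [Real.exp_sum, Nat.cast_prod]
        refine prod_congr rfl fun p hp => ?_
        have hp0 : (0 : ℝ) < p := by exact_mod_cast (hPr p (hq2 p (lo_sub g q hp))).pos
        rw [Nat.cast_pow, ← Real.log_pow, Real.exp_log (pow_pos hp0 _)]
      rw [h2]
      refine Real.exp_le_exp.mpr ?_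
      have h3 : lng ell t = ∑ p ∈ lo g q, ell (sc p) := by
        rw [sum_typ, e4]; rfl
      rw [h3]
      exact sum_le_sum fun p hp => hell p (hq2 p (lo_sub g q hp))
    have hmr : (2 : ℝ) ≤ mom Θ A ell t := by exact_mod_cast hm2
    -- weights
    have hterm : ∀ q ∈ QQ.filter (fun q => cl q = (h, t)), kapProd kw q * En q
        ≤ (kapProd kw h * ((∏ j, Y j ^ t j) / (deg t : ℝ) ^ deg t)) *
          ((∏ p ∈ lo g q, (24 * (mom Θ A ell t : ℝ) * b p)⁻¹) * En q) := by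
      intro q hq
      obtain ⟨hqQ, hqc⟩ := mem_filter.mp hq
      have e3 : hi g q = h := by rw [hcl] at hqc; exact congrArg Prod.fst hqc
      have e4 : typ sc (lo g q) = t := by rw [hcl] at hqc; exact congrArg Prod.snd hqc
      obtain ⟨hq1, hq2, -, -⟩ := hQ q hqQ
      rw [kap_split g kw, e3]
      have hlo : ∀ p ∈ lo g q, p ∈ Pr := fun p hp => hq2 p (lo_sub g q hp)
      have h2 := prod_le_class (Θ := Θ) (A := A) h1 (sc := sc) (S := lo g q) hΘ
        (y := fun p => kw p (q.factorization p) * b p) (Y := Y)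
        (fun p hp => mul_nonneg (hkw _ _) (zero_le_one.trans (hb1 p (hlo p hp)))) ?_
      · rw [e4] at h2
        have h3 : ∏ p ∈ lo g q, kw p (q.factorization p)
            = (∏ p ∈ lo g q, (24 * (mom Θ A ell t : ℝ) * (kw p (q.factorization p) * b p))) *
              ∏ p ∈ lo g q, (24 * (mom Θ A ell t : ℝ) * b p)⁻¹ := by
          rw [← prod_mul_distrib]
          refine prod_congr rfl fun p hp => ?_
          have h4 : b p ≠ 0 := (zero_lt_one.trans_le (hb1 p (hlo p hp))).ne'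
          have h5 : (mom Θ A ell t : ℝ) ≠ 0 := by linarith
          field_simp
        have h6 : 0 ≤ (∏ p ∈ lo g q, (24 * (mom Θ A ell t : ℝ) * b p)⁻¹) * En q := by
          refine mul_nonneg (prod_nonneg fun p hp => inv_nonneg.mpr ?_) (hEn q)
          have := hb1 p (hlo p hp)
          positivity
        rw [h3]
        calc kapProd kw h * ((∏ p ∈ lo g q,
              (24 * (mom Θ A ell t : ℝ) * (kw p (q.factorization p) * b p))) *
              ∏ p ∈ lo g q, (24 * (mom Θ A ell t : ℝ) * b p)⁻¹) * En q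
            = (kapProd kw h * ∏ p ∈ lo g q,
              (24 * (mom Θ A ell t : ℝ) * (kw p (q.factorization p) * b p))) *
              ((∏ p ∈ lo g q, (24 * (mom Θ A ell t : ℝ) * b p)⁻¹) * En q) := by ring
          _ ≤ _ := mul_le_mul_of_nonneg_right (mul_le_mul_of_nonneg_left h2 (hkP h)) h6
      · intro p hp
        have hpl : q.factorization p ≤ g p := (mem_filter.mp hp).2
        have hpv : 1 ≤ q.factorization p := by
          have h3 := lo_sub g q hp
          rw [← Nat.support_factorization] at h3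
          exact Nat.one_le_iff_ne_zero.mpr (Finsupp.mem_support_iff.1 h3)
        have h4 := hX p (hlo p hp) _ hpv hpl
        rw [hY]
        show 24 * Θ * (kw p (q.factorization p) * b p)
          ≤ X (sc p) * Real.exp (-(σ * ell (sc p)))
        rw [Real.exp_neg, ← div_eq_mul_inv, le_div_iff₀ (Real.exp_pos _), hb]
        exact h4
    have hYt : 0 ≤ (∏ j, Y j ^ t j) / (deg t : ℝ) ^ deg t :=
      div_nonneg (prod_nonneg fun j _ => pow_nonneg (hY0 j) _) (by positivity)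
    refine (sum_le_sum hterm).trans ?_
    rw [← mul_sum]
    refine (mul_le_mul_of_nonneg_left hmain (mul_nonneg (hkP h) hYt)).trans ?_
    have h7 := rpow_mom (σ := σ) (B := B * (h : ℝ) ^ τ) h1 hl hA hσ0 hσ hβ
    have h8 : (B * (h : ℝ) ^ τ) ^ 2 + 1 ≤ (h : ℝ) ^ (2 * τ) * (B ^ 2 + 1) := by
      have h9 : ((h : ℝ) ^ τ) ^ 2 = (h : ℝ) ^ (2 * τ) := by
        rw [← Real.rpow_natCast, ← Real.rpow_mul (by linarith)]
        congr 1
        push_cast
        ring
      have h10 : 1 ≤ (h : ℝ) ^ (2 * τ) := Real.one_le_rpow hhr (by linarith)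
      rw [mul_pow, h9]
      nlinarith [sq_nonneg B]
    have h11 : Real.exp (σ * lng ell t) * ∏ j, Y j ^ t j = ∏ j, X j ^ t j := by
      rw [exp_lng, ← prod_mul_distrib]
      refine prod_congr rfl fun j _ => ?_
      rw [← mul_pow, hY]
      congr 1
      show Real.exp (σ * ell j) * (X j * Real.exp (-(σ * ell j))) = X j
      rw [Real.exp_neg]
      field_simp
    calc (kapProd kw h * ((∏ j, Y j ^ t j) / (deg t : ℝ) ^ deg t)) *
          (K * ((B * (h : ℝ) ^ τ) ^ 2 * (1 + (A / (B * (h : ℝ) ^ τ)) ^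
            (1 / (mom Θ A ell t : ℝ)))))
        ≤ (kapProd kw h * ((∏ j, Y j ^ t j) / (deg t : ℝ) ^ deg t)) *
          (K * (4 * ((h : ℝ) ^ (2 * τ) * (B ^ 2 + 1)) * Real.exp (σ * lng ell t))) := by
          refine mul_le_mul_of_nonneg_left ?_ (mul_nonneg (hkP h) hYt)
          refine mul_le_mul_of_nonneg_left (h7.trans ?_) hK
          refine mul_le_mul_of_nonneg_right ?_ (Real.exp_nonneg _)
          linarith
      _ = kapProd kw h * (h : ℝ) ^ (2 * τ) *
          ((Real.exp (σ * lng ell t) * ∏ j, Y j ^ t j) / (deg t : ℝ) ^ deg t) *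
          (4 * K * (B ^ 2 + 1)) := by ring
      _ = _ := by rw [h11]
  -- all classes
  have hsplit : ∑ q ∈ QQ, kapProd kw q * En q
      = ∑ c ∈ QQ.image cl, ∑ q ∈ QQ.filter (fun q => cl q = c), kapProd kw q * En q :=
    (sum_fiberwise_of_maps_to (fun q hq => mem_image_of_mem cl hq) _).symm
  obtain ⟨F1, hF1⟩ : ∃ F1 : ℕ → ℝ, F1 = fun h => kapProd kw h * (h : ℝ) ^ (2 * τ) := ⟨_, rfl⟩
  obtain ⟨F2, hF2⟩ : ∃ F2 : (J → ℕ) → ℝ,
    F2 = fun t => (∏ j, X j ^ t j) / (deg t : ℝ) ^ deg t := ⟨_, rfl⟩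
  have hF10 : ∀ h, 0 ≤ F1 h := fun h => by
    rw [hF1]; exact mul_nonneg (hkP h) (Real.rpow_nonneg (Nat.cast_nonneg _) _)
  have hF20 : ∀ t, 0 ≤ F2 t := fun t => by
    rw [hF2]
    exact div_nonneg (prod_nonneg fun j _ => pow_nonneg (hX0 j) _) (by positivity)
  have hc0 : 0 ≤ 4 * K * (B ^ 2 + 1) := by positivity
  rw [hsplit]
  calc ∑ c ∈ QQ.image cl, ∑ q ∈ QQ.filter (fun q => cl q = c), kapProd kw q * En q
      ≤ ∑ c ∈ QQ.image cl, F1 c.1 * F2 c.2 * (4 * K * (B ^ 2 + 1)) := by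
        refine sum_le_sum fun c hc => ?_
        rw [hF1, hF2]
        exact hclass c hc
    _ = (∑ c ∈ QQ.image cl, F1 c.1 * F2 c.2) * (4 * K * (B ^ 2 + 1)) := by rw [sum_mul]
    _ ≤ ((∑ h ∈ QQ.image (hi g), F1 h) * ∑ t ∈ QQ.image (fun q => typ sc (lo g q)), F2 t) *
          (4 * K * (B ^ 2 + 1)) := by
        refine mul_le_mul_of_nonneg_right ?_ hc0
        rw [sum_mul_sum, ← sum_product']
        refine sum_le_sum_of_subset_of_nonneg ?_ fun c _ _ => mul_nonneg (hF10 _) (hF20 _)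
        intro c hc
        obtain ⟨q, hq, rfl⟩ := mem_image.mp hc
        rw [mem_product, hcl]
        exact ⟨mem_image_of_mem _ hq, mem_image_of_mem (fun q => typ sc (lo g q)) hq⟩
    _ ≤ (H * Real.exp (∑ j, X j)) * (4 * K * (B ^ 2 + 1)) := by
        refine mul_le_mul_of_nonneg_right ?_ hc0
        have h2 : ∑ h ∈ QQ.image (hi g), F1 h ≤ H := by rw [hF1]; exact hH
        have h3 : ∑ t ∈ QQ.image (fun q => typ sc (lo g q)), F2 t ≤ Real.exp (∑ j, X j) := by
          rw [hF2]; exact sum_types hX0 _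
        refine mul_le_mul h2 h3 (sum_nonneg fun t _ => hF20 t) ?_
        exact le_trans (sum_nonneg fun h _ => hF10 h) h2
    _ = _ := by ring

end

end Vale.Agent.P042.H892
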