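import Mathlib

/-!
Sums over types of sets of legs, power regime (P042, top scales): a class is a vector
`t : J → ℕ` (number of legs per scale), its cost is `∏ X_j ^ t_j / (∑ t_j) ^ (∑ t_j)`, the sum over
all classes is at most `exp (∑ X_j)`.
-/

namespace Vale.Agent.P042.H892

open Finset

set_option linter.unusedSectionVars false

section
variable {J : Type*} [Fintype J] [DecidableEq J]

/-- number of legs -/
def deg (t : J → ℕ) : ℕ := ∑ j, t j

lemma fact_le_pow_deg (t : J → ℕ) :
    (∏ j, ((t j).factorial : ℝ)) ≤ (deg t : ℝ) ^ deg t := by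
  have h1 : ((deg t : ℝ)) ^ deg t = ∏ j, (deg t : ℝ) ^ t j := by
    rw [prod_pow_eq_pow_sum]; rfl
  rw [h1]
  refine prod_le_prod (fun j _ => Nat.cast_nonneg _) fun j _ => ?_
  have h2 : ((t j).factorial : ℝ) ≤ (t j : ℝ) ^ t j := by
    exact_mod_cast Nat.factorial_le_pow (t j)
  refine h2.trans (pow_le_pow_left₀ (Nat.cast_nonneg _) ?_ _)
  have : t j ≤ deg t := single_le_sum (f := t) (fun _ _ => Nat.zero_le _) (mem_univ j)
  exact_mod_cast this

/-- **sum over classes** -/
theorem sum_types {X : J → ℝ} (hX : ∀ j, 0 ≤ X j) (T : Finset (J → ℕ)) :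
    ∑ t ∈ T, (∏ j, X j ^ t j) / (deg t : ℝ) ^ deg t ≤ Real.exp (∑ j, X j) := by
  obtain ⟨N, hN⟩ : ∃ N : ℕ, ∀ t ∈ T, ∀ j, t j < N := by
    refine ⟨(T.sup fun t => deg t) + 1, fun t ht j => ?_⟩
    have h1 : t j ≤ deg t := single_le_sum (f := t) (fun _ _ => Nat.zero_le _) (mem_univ j)
    have h2 : deg t ≤ T.sup fun t => deg t := le_sup (f := fun t => deg t) ht
    omega
  have hsub : T ⊆ Fintype.piFinset (fun _ : J => range N) := by
    intro t ht
    rw [Fintype.mem_piFinset]
    exact fun j => mem_range.mpr (hN t ht j)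
  have hterm : ∀ t : J → ℕ, (∏ j, X j ^ t j) / (deg t : ℝ) ^ deg t
      ≤ ∏ j, (X j ^ t j / ((t j).factorial : ℝ)) := by
    intro t
    rw [prod_div_distrib]
    refine div_le_div_of_nonneg_left (prod_nonneg fun j _ => pow_nonneg (hX j) _) ?_
      (fact_le_pow_deg t)
    exact prod_pos fun j _ => by exact_mod_cast Nat.factorial_pos _
  calc ∑ t ∈ T, (∏ j, X j ^ t j) / (deg t : ℝ) ^ deg t
      ≤ ∑ t ∈ T, ∏ j, (X j ^ t j / ((t j).factorial : ℝ)) := sum_le_sum fun t _ => hterm t
    _ ≤ ∑ t ∈ Fintype.piFinset (fun _ : J => range N),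
          ∏ j, (X j ^ t j / ((t j).factorial : ℝ)) :=
        sum_le_sum_of_subset_of_nonneg hsub fun t _ _ =>
          prod_nonneg fun j _ => div_nonneg (pow_nonneg (hX j) _) (Nat.cast_nonneg _)
    _ = ∏ j, ∑ k ∈ range N, X j ^ k / (k.factorial : ℝ) := by
        rw [prod_univ_sum]
    _ ≤ ∏ j, Real.exp (X j) := by
        refine prod_le_prod (fun j _ => sum_nonneg fun k _ =>
          div_nonneg (pow_nonneg (hX j) _) (Nat.cast_nonneg _)) fun j _ => ?_
        exact Real.sum_le_exp_of_nonneg (hX j) N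
    _ = Real.exp (∑ j, X j) := by rw [Real.exp_sum]

/-- the type of a set of legs -/
def typ {α : Type*} (sc : α → J) (S : Finset α) : J → ℕ := fun j => (S.filter fun p => sc p = j).card

lemma deg_typ {α : Type*} (sc : α → J) (S : Finset α) : deg (typ sc S) = S.card := by
  unfold deg typ
  rw [card_eq_sum_card_fiberwise (f := sc) (s := S) (t := univ) fun _ _ => mem_univ _]

lemma prod_typ {α : Type*} (sc : α → J) (S : Finset α) (X : J → ℝ) :
    ∏ p ∈ S, X (sc p) = ∏ j, X j ^ typ sc S j := by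
  unfold typ
  rw [← prod_fiberwise_of_maps_to (s := S) (t := univ) (g := sc) fun _ _ => mem_univ _]
  refine prod_congr rfl fun j _ => ?_
  rw [prod_congr rfl (g := fun _ => X j) fun p hp => by rw [(mem_filter.mp hp).2], prod_const]

lemma sum_typ {α : Type*} (sc : α → J) (S : Finset α) (Y : J → ℝ) :
    ∑ p ∈ S, Y (sc p) = ∑ j, (typ sc S j : ℝ) * Y j := by
  unfold typ
  rw [← sum_fiberwise_of_maps_to (s := S) (t := univ) (g := sc) fun _ _ => mem_univ _]
  refine sum_congr rfl fun j _ => ?_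
  rw [sum_congr rfl (g := fun _ => Y j) fun p hp => by rw [(mem_filter.mp hp).2], sum_const,
    nsmul_eq_mul]

end

end Vale.Agent.P042.H892
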