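import Vale.Agent.P042.H678.RowM

/-!
# P042, block [B] with UNITS (lemma (M) of #10307)

`mu` a law, `sg` a signed measure absolutely continuous with respect to `mu` (the law times a root
function), `k` the connected densities of `sg` relative to `mu`. Then
`∑_{|e| = d} ∏_e (t/M) ‖k_e‖² ≤ 3 d! (d+1)^d E_R E_{x_R ~ mu} (E[root | x_R])²`.
-/

set_option autoImplicit false
set_option linter.unusedSectionVars false

namespace Vale.Agent.P042.H892

open Finset Vale.Agent.P042.H461 Vale.Agent.P042.H416 Vale.Agent.P042.H742 Vale.Agent.P042.H678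
open Vale.Agent.P042.H779 (marg m1)

variable {ι : Type*} [Fintype ι] [DecidableEq ι] {V : ι → Type*} [∀ i, Fintype (V i)]
  [∀ i, DecidableEq (V i)]

/-- the connected densities of the signed measure `sg` relative to `mu` -/
def IsCumU (lam : ∀ i, V i → ℝ) (mu sg : (∀ i, V i) → ℝ)
    (k : Finset ι → (∀ i, V i) → ℝ) : Prop :=
  ∀ (D : Finset ι) (x : ∀ i, V i), W lam x ≠ 0 →
    gr lam sg D x = ∑ C ∈ D.powerset, k C x * gr lam mu (D \ C) x

/-- the energy of order `d` -/
noncomputable def unitQ (lam : ∀ i, V i → ℝ) (t : ι → ℝ) (k : Finset ι → (∀ i, V i) → ℝ)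
    (d : ℕ) : ℝ :=
  ∑ e : Finset ι with e.card = d, (∏ j ∈ e, t j) * ∑ x, W lam x * k e x ^ 2

/-- the conditional energy `E_{x_R ~ mu} (E[root | x_R])²` -/
noncomputable def ce2 (mu sg : (∀ i, V i) → ℝ) (R : Finset ι) : ℝ :=
  ∑ x, mu x * (marg sg R x / marg mu R x) ^ 2

/-- its Bernoulli average -/
noncomputable def UE (t : ι → ℝ) (mu sg : (∀ i, V i) → ℝ) : ℝ :=
  ∑ R : Finset ι, bw t R * ce2 mu sg R

/-! ### Bernoulli sampling -/

/-- the sampled family -/
noncomputable def FR (t : ι → ℝ) (T : Finset ι → (∀ i, V i) → ℝ) (R : Finset ι)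
    (x : ∀ i, V i) : ℝ := ∑ D ∈ R.powerset, (∏ i ∈ D, t i)⁻¹ * T D x

theorem FR_dep (t : ι → ℝ) {T : Finset ι → (∀ i, V i) → ℝ}
    (hdep : ∀ D, DependsOn (T D) (D : Set ι)) (R : Finset ι) {x y : ∀ i, V i}
    (h : ∀ i ∈ R, x i = y i) : FR t T R x = FR t T R y := by
  unfold FR
  refine Finset.sum_congr rfl fun D hD => ?_
  congr 1
  exact hdep D fun i hi => h i ((Finset.mem_powerset.1 hD) hi)

theorem sum_FR {t : ι → ℝ} (ht : ∀ i, t i ≠ 0) (T : Finset ι → (∀ i, V i) → ℝ)
    (x : ∀ i, V i) : ∑ D, T D x = ∑ R, bw t R * FR t T R x := by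
  have htD : ∀ D : Finset ι, ∏ i ∈ D, t i ≠ 0 := fun D => Finset.prod_ne_zero_iff.2 fun i _ => ht i
  have h1 : ∀ R : Finset ι, bw t R * FR t T R x =
      ∑ D, (∏ i ∈ D, t i)⁻¹ * T D x * (if D ⊆ R then bw t R else 0) := by
    intro R
    unfold FR
    rw [← Finset.sum_filter_add_sum_filter_not univ (fun D => D ⊆ R)]
    have h2 : ∑ D with ¬ D ⊆ R, (∏ i ∈ D, t i)⁻¹ * T D x * (if D ⊆ R then bw t R else 0) = 0 :=
      Finset.sum_eq_zero fun D hD => by rw [if_neg (Finset.mem_filter.1 hD).2, mul_zero]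
    have h3 : (univ.filter fun D : Finset ι => D ⊆ R) = R.powerset := by
      ext D
      simp
    rw [h2, add_zero, h3, Finset.mul_sum]
    refine Finset.sum_congr rfl fun D hD => ?_
    rw [if_pos (Finset.mem_powerset.1 hD)]
    ring
  rw [Finset.sum_congr rfl fun R _ => h1 R, Finset.sum_comm]
  refine Finset.sum_congr rfl fun D _ => ?_
  rw [← Finset.mul_sum, ← Finset.sum_filter, sum_bw_superset]
  have := htD D
  field_simp

theorem sum_FR_sq {t : ι → ℝ} (ht : ∀ i, t i ≠ 0) (T : Finset ι → (∀ i, V i) → ℝ)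
    (x : ∀ i, V i) : ∑ R, bw t R * FR t T R x ^ 2 = AJ t T x := by
  have htD : ∀ D : Finset ι, ∏ i ∈ D, t i ≠ 0 := fun D => Finset.prod_ne_zero_iff.2 fun i _ => ht i
  have h1 := sub_gen ht (fun D => (∏ i ∈ D, t i)⁻¹ * T D x)
  unfold FR
  rw [h1]
  unfold AJ
  refine Finset.sum_congr rfl fun J _ => ?_
  congr 2
  refine Finset.sum_congr rfl fun D _ => ?_
  rw [← mul_assoc, mul_inv_cancel₀ (htD D), one_mul]

/-! ### projection to the coordinates in `R` -/

theorem marg_of_eq (nu : (∀ i, V i) → ℝ) (R : Finset ι) {x y : ∀ i, V i}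
    (h : ∀ i ∈ R, x i = y i) : marg nu R x = marg nu R y :=
  Vale.Agent.P042.H779.marg_congr R h

/-- integration of a function of `x_R` against a signed measure `s ≪ P` -/
theorem sum_proj {P s : (∀ i, V i) → ℝ} (hP : ∀ x, 0 ≤ P x) (hs : AC s P) (R : Finset ι)
    {G : (∀ i, V i) → ℝ} (hG : ∀ x y : ∀ i, V i, (∀ i ∈ R, x i = y i) → G x = G y) :
    ∑ x, s x * G x = ∑ x, P x * (marg s R x / marg P R x * G x) := by
  have h1 : ∀ x, P x * (marg s R x / marg P R x * G x) =
      ∑ z, if (∀ i ∈ R, z i = x i) then s z * (G z * (P x / marg P R z)) else 0 := by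
    intro x
    have h2 : marg s R x = ∑ z, if (∀ i ∈ R, z i = x i) then s z else 0 := rfl
    rw [h2, Finset.sum_div, Finset.sum_mul, Finset.mul_sum]
    refine Finset.sum_congr rfl fun z _ => ?_
    by_cases hz : ∀ i ∈ R, z i = x i
    · rw [if_pos hz, if_pos hz, hG z x hz, marg_of_eq P R hz]
      ring
    · rw [if_neg hz, if_neg hz]
      simp
  rw [Finset.sum_congr rfl fun x _ => h1 x, Finset.sum_comm]
  refine Finset.sum_congr rfl fun z _ => ?_
  by_cases h0 : P z = 0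
  · have h3 : s z = 0 := hs z h0
    rw [h3]
    simp
  have hm : marg P R z ≠ 0 := by
    have h4 := Vale.Agent.P042.H742.le_marg hP R z
    exact (lt_of_lt_of_le (lt_of_le_of_ne (hP z) (Ne.symm h0)) h4).ne'
  have h5 : ∑ x, (if (∀ i ∈ R, z i = x i) then s z * (G z * (P x / marg P R z)) else 0) =
      s z * (G z * ((∑ x, if (∀ i ∈ R, x i = z i) then P x else 0) / marg P R z)) := by
    rw [Finset.sum_div, Finset.mul_sum, Finset.mul_sum]
    refine Finset.sum_congr rfl fun x _ => ?_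
    by_cases hz : ∀ i ∈ R, z i = x i
    · rw [if_pos hz, if_pos fun i hi => (hz i hi).symm]
    · rw [if_neg hz, if_neg fun h => hz fun i hi => (h i hi).symm]
      simp
  rw [h5]
  have h6 : (∑ x, if (∀ i ∈ R, x i = z i) then P x else 0) = marg P R z := rfl
  rw [h6, div_self hm, mul_one]

/-- weighted Cauchy-Schwarz -/
theorem cs_weighted {α : Type*} (S : Finset α) {w f g : α → ℝ} (hw : ∀ a ∈ S, 0 ≤ w a) :
    (∑ a ∈ S, w a * (f a * g a)) ^ 2 ≤ (∑ a ∈ S, w a * f a ^ 2) * ∑ a ∈ S, w a * g a ^ 2 := by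
  have h := Finset.sum_mul_sq_le_sq_mul_sq S (fun a => Real.sqrt (w a) * f a)
    (fun a => Real.sqrt (w a) * g a)
  have e1 : ∀ a ∈ S, Real.sqrt (w a) * f a * (Real.sqrt (w a) * g a) = w a * (f a * g a) := by
    intro a ha
    have := Real.mul_self_sqrt (hw a ha)
    calc _ = (Real.sqrt (w a) * Real.sqrt (w a)) * (f a * g a) := by ring
      _ = _ := by rw [this]
  have e2 : ∀ (u : α → ℝ), ∀ a ∈ S, (Real.sqrt (w a) * u a) ^ 2 = w a * u a ^ 2 := by
    intro u a ha
    rw [mul_pow, Real.sq_sqrt (hw a ha)]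
  rw [Finset.sum_congr rfl e1, Finset.sum_congr rfl (e2 f), Finset.sum_congr rfl (e2 g)] at h
  exact h

/-- **the testing inequality for a signed measure** -/
theorem test_signed {P s : (∀ i, V i) → ℝ} (hP : ∀ x, 0 ≤ P x) (hs : AC s P) {t : ι → ℝ}
    (ht0 : ∀ i, 0 < t i) (ht1 : ∀ i, t i ≤ 1) {T : Finset ι → (∀ i, V i) → ℝ}
    (hdep : ∀ D, DependsOn (T D) (D : Set ι)) :
    (∑ x, s x * ∑ D, T D x) ^ 2 ≤
      (∑ R : Finset ι, bw t R * ce2 P s R) * ∑ x, P x * AJ t T x := by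
  have ht : ∀ i, t i ≠ 0 := fun i => (ht0 i).ne'
  have hb : ∀ R, 0 ≤ bw t R := bw_nonneg (fun i => (ht0 i).le) ht1
  have h1 : ∑ x, s x * ∑ D, T D x =
      ∑ q : Finset ι × (∀ i, V i), (bw t q.1 * P q.2) *
        (marg s q.1 q.2 / marg P q.1 q.2 * FR t T q.1 q.2) := by
    rw [Fintype.sum_prod_type]
    have h2 : ∀ R : Finset ι, ∑ x, (bw t R * P x) * (marg s R x / marg P R x * FR t T R x) =
        bw t R * ∑ x, s x * FR t T R x := by
      intro R
      rw [sum_proj hP hs R (G := FR t T R) (fun x y h => FR_dep t hdep R h), Finset.mul_sum]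
      exact Finset.sum_congr rfl fun x _ => by ring
    rw [Finset.sum_congr rfl fun R _ => h2 R]
    have h3 : ∀ x, s x * ∑ D, T D x = ∑ R, bw t R * (s x * FR t T R x) := by
      intro x
      rw [sum_FR ht T x, Finset.mul_sum]
      exact Finset.sum_congr rfl fun R _ => by ring
    rw [Finset.sum_congr rfl fun x _ => h3 x, Finset.sum_comm]
    exact Finset.sum_congr rfl fun R _ => by rw [Finset.mul_sum]
  have h4 := cs_weighted (univ : Finset (Finset ι × (∀ i, V i)))
    (w := fun q => bw t q.1 * P q.2) (f := fun q => marg s q.1 q.2 / marg P q.1 q.2)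
    (g := fun q => FR t T q.1 q.2) (fun q _ => mul_nonneg (hb _) (hP _))
  rw [h1]
  refine h4.trans (le_of_eq ?_)
  congr 1
  · rw [Fintype.sum_prod_type]
    refine Finset.sum_congr rfl fun R _ => ?_
    unfold ce2
    rw [Finset.mul_sum]
    exact Finset.sum_congr rfl fun x _ => by ring
  · rw [Fintype.sum_prod_type, Finset.sum_comm]
    refine Finset.sum_congr rfl fun x _ => ?_
    rw [← sum_FR_sq ht T x, Finset.mul_sum]
    exact Finset.sum_congr rfl fun R _ => by ring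

/-! ### replicas -/

variable {N : ℕ}

/-- replica `r0` carries the signed measure -/
def srep (mu sg : (∀ i, V i) → ℝ) (r0 : Fin N) : (∀ p : ι × Fin N, V p.1) → ℝ :=
  rps fun r => if r = r0 then sg else mu

theorem ce2_srep {mu sg : (∀ i, V i) → ℝ} (hmu : IsLaw mu) (r0 : Fin N)
    (R : Finset (ι × Fin N)) :
    ce2 (rep mu N) (srep mu sg r0) R = ce2 mu sg (sl R r0) := by
  unfold ce2 srep
  have hpos : ∀ (S : Finset ι) (x : ∀ i, V i), mu x ≠ 0 → marg mu S x ≠ 0 := by
    intro S x hx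
    exact (lt_of_lt_of_le (lt_of_le_of_ne (hmu.1 x) hx.symm)
      (Vale.Agent.P042.H742.le_marg hmu.1 S x)).ne'
  have h2 : ∀ y : (∀ p : ι × Fin N, V p.1),
      rep mu N y * (marg (rps fun r => if r = r0 then sg else mu) R y /
        marg (rep mu N) R y) ^ 2 =
      ∏ r, (mu (sly y r) * if r = r0 then
        (marg sg (sl R r0) (sly y r) / marg mu (sl R r0) (sly y r)) ^ 2 else 1) := by
    intro y
    rw [Finset.prod_mul_distrib, Finset.prod_ite_eq' univ r0, if_pos (Finset.mem_univ _)]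
    change rep mu N y * _ = rep mu N y * _
    by_cases hy : rep mu N y = 0
    · rw [hy, zero_mul, zero_mul]
    congr 1
    congr 1
    rw [rep_eq_rps, marg_rps, marg_rps, ← Finset.prod_div_distrib]
    have hy' : ∀ r, mu (sly y r) ≠ 0 := fun r => Finset.prod_ne_zero_iff.1 hy r (Finset.mem_univ _)
    rw [Finset.prod_eq_single r0]
    · rw [if_pos rfl]
    · intro r _ hr
      rw [if_neg hr]
      exact div_self (hpos _ _ (hy' r))
    · intro h
      exact absurd (Finset.mem_univ _) h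
  rw [Finset.sum_congr rfl fun y _ => h2 y]
  rw [sum_slices (fun r x => mu x * if r = r0 then
        (marg sg (sl R r0) x / marg mu (sl R r0) x) ^ 2 else 1)]
  rw [Finset.prod_eq_single r0]
  · simp only [if_true]
  · intro r _ hr
    simp only [if_neg hr, mul_one]
    exact hmu.2
  · intro h
    exact absurd (Finset.mem_univ _) h

theorem UE_srep {mu sg : (∀ i, V i) → ℝ} (hmu : IsLaw mu) (t : ι → ℝ) (r0 : Fin N) :
    ∑ R : Finset (ι × Fin N), bw (rt t N) R * ce2 (rep mu N) (srep mu sg r0) R =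
      UE t mu sg := by
  rw [Finset.sum_congr rfl fun R _ => by rw [ce2_srep hmu r0 R]]
  exact sum_bw_slice t r0 fun S => ce2 mu sg S

theorem AC_srep {mu sg : (∀ i, V i) → ℝ} (hs : AC sg mu) (r0 : Fin N) :
    AC (srep mu sg r0) (rep mu N) := by
  intro y hy
  rw [rep_eq_rps] at hy
  obtain ⟨r, hr, h0⟩ := Finset.prod_eq_zero_iff.1 hy
  refine Finset.prod_eq_zero hr ?_
  by_cases h : r = r0
  · simp only [h, if_true]
    rw [h] at h0
    exact hs _ h0
  · simp only [h, if_false]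
    exact h0

/-- the rotated family without excluded coordinate -/
theorem isFam_rotT0 (mu : (∀ i, V i) → ℝ) (d : ℕ)
    (psi : Finset ι → (∀ i, V i) → ℝ) (hloc : ∀ e, DependsOn (psi e) (e : Set ι)) :
    IsFam (V := fun p : ι × Fin (d + 1) => V p.1) (H742.rep mu (d + 1)) ∅ d
      (H540.rotT d psi) where
  deg D hD := by
    funext y
    exact H540.rotT_card d psi D hD y
  off D hD := absurd (Finset.disjoint_empty_right D) hD
  dep D := H540.dep_of_loc (H540.rotT_loc d psi (fun e => H540.loc_of_dep (hloc e)) D)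
  zz J hJ z := by
    have := H540.rotT_Z mu d psi (fun e => H540.loc_of_dep (hloc e)) J hJ z
    simp_rw [H540.mix_eq] at this
    exact this

/-- the rotated product at a fixed point -/
lemma rot_pointU (lam : ∀ i, V i → ℝ) (mu sg : (∀ i, V i) → ℝ) (hmu : ∑ x, mu x = 1)
    (d : ℕ) (k : Finset ι → (∀ i, V i) → ℝ) (hk : IsCumU lam mu sg k)
    (e : Finset ι) (hed : e.card ≤ d) (v : ∀ i, V i) (hW : W lam v ≠ 0) :
    ∑ ρ ∈ H540.Rho d e, H540.wt d e ρ * ∏ r, (if r = 0 then
        (H742.gr lam sg (e.filter fun j => ρ j = r) v : ℂ)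
      else (H742.gr lam mu (e.filter fun j => ρ j = r) v : ℂ))
      = (k e v : ℂ) := by
  refine H540.rot_conv (d := d) e hed (fun C => (H742.gr lam mu C v : ℂ))
    (fun C => (H742.gr lam sg C v : ℂ))
    (fun C => (k C v : ℂ)) ?_ ?_
  · simp [H742.gr, lw, marg, hmu]
  · intro E _
    rw [hk E v hW]
    push_cast
    rfl

lemma mean_U (lam : ∀ i, V i → ℝ) (hlam : ∀ i, ∑ a, lam i a = 1)
    (mu sg : (∀ i, V i) → ℝ) (hac : ∀ A x, lw lam A x = 0 → marg mu A x = 0)
    (hac' : ∀ A x, lw lam A x = 0 → marg sg A x = 0)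
    (d : ℕ) (e : Finset ι) (ρ : ι → Fin (d + 1))
    (psi : (∀ i, V i) → ℝ) (hpsi : H540.Loc e psi) :
    (∑ y, srep mu sg (0 : Fin (d + 1)) y * psi (fun j => y (j, ρ j)))
      = ∑ v, W lam v * (psi v * ∏ r, (if r = 0 then
          H742.gr lam sg (e.filter fun j => ρ j = r) v
        else H742.gr lam mu (e.filter fun j => ρ j = r) v)) := by
  classical
  have h0 : ∀ y : (∀ p : ι × Fin (d + 1), V p.1), srep mu sg (0 : Fin (d + 1)) y =
      H540.repF (fun r : Fin (d + 1) => if r = 0 then sg else mu) y := fun y => rfl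
  simp_rw [h0]
  rw [H540.repF_point _ lam hlam e ρ psi hpsi]
  have h4 : ∀ v : (∀ i, V i), ∀ r : Fin (d + 1),
      marg (if r = 0 then sg else mu) (e.filter fun j => ρ j = r) v
      = (∏ j ∈ e.filter (fun j => ρ j = r), lam j (v j)) *
        (if r = 0 then H742.gr lam sg (e.filter fun j => ρ j = r) v
          else H742.gr lam mu (e.filter fun j => ρ j = r) v) := by
    intro v r
    by_cases hr : r = 0
    · simp only [hr, if_true]
      rw [H540.marg_eq_lw_gr lam sg hac']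
      rfl
    · simp only [hr, if_false]
      rw [H540.marg_eq_lw_gr lam mu hac]
      rfl
  simp_rw [h4]
  refine sum_congr rfl fun v _ => ?_
  rw [prod_mul_distrib,
    prod_fiberwise_of_maps_to (s := e) (t := univ) (g := ρ) (fun j _ => mem_univ _)
      (f := fun j => lam j (v j))]
  unfold W
  rw [← prod_mul_prod_compl e (fun j => lam j (v j))]
  ring

/-- **the exact testing identity for units** -/
theorem test_unit (lam : ∀ i, V i → ℝ) (hlam : ∀ i, ∑ a, lam i a = 1)
    (mu sg : (∀ i, V i) → ℝ) (hmu : ∑ x, mu x = 1)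
    (hac : ∀ A x, lw lam A x = 0 → marg mu A x = 0)
    (hac' : ∀ A x, lw lam A x = 0 → marg sg A x = 0)
    (d : ℕ) (k : Finset ι → (∀ i, V i) → ℝ) (hk : IsCumU lam mu sg k)
    (psi : Finset ι → (∀ i, V i) → ℝ) (hloc : ∀ e, DependsOn (psi e) (e : Set ι))
    (hcard : ∀ e, e.card ≠ d → psi e = 0) :
    ∑ y, srep mu sg (0 : Fin (d + 1)) y * ∑ D, H540.rotT d psi D y
      = ∑ e, ∑ x, W lam x * (psi e x * k e x) := by
  classical
  have hψ : ∀ e, H540.Loc e (psi e) := fun e => H540.loc_of_dep (hloc e)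
  have h1 : ∀ y : (∀ p : ι × Fin (d + 1), V p.1), ∑ D, H540.rotT d psi D y
      = ∑ q ∈ H540.Idx ι d, ((H540.wt d q.1 q.2).re * psi q.1 (fun j => y (j, q.2 j))) := by
    intro y
    have := H540.sum_rotT d psi (fun _ => 1) y
    simpa using this
  simp_rw [h1]
  have h2 : ∀ y : (∀ p : ι × Fin (d + 1), V p.1),
      srep mu sg (0 : Fin (d + 1)) y *
        ∑ q ∈ H540.Idx ι d, ((H540.wt d q.1 q.2).re * psi q.1 (fun j => y (j, q.2 j)))
      = ∑ q ∈ H540.Idx ι d, (H540.wt d q.1 q.2).re *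
        (srep mu sg (0 : Fin (d + 1)) y * psi q.1 (fun j => y (j, q.2 j))) := by
    intro y
    rw [mul_sum]
    exact sum_congr rfl fun q _ => by ring
  simp_rw [h2]
  rw [sum_comm]
  simp_rw [← mul_sum]
  rw [H540.sum_Idx (fun e ρ => (H540.wt d e ρ).re * ∑ y : (∀ p : ι × Fin (d + 1), V p.1),
    srep mu sg (0 : Fin (d + 1)) y * psi e (fun j => y (j, ρ j)))]
  have h3 : ∑ e, ∑ x, W lam x * (psi e x * k e x)
      = ∑ e ∈ powersetCard d (univ : Finset ι), ∑ x, W lam x * (psi e x * k e x) := by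
    symm
    refine sum_subset (subset_univ _) fun e _ he => ?_
    have : e.card ≠ d := fun hc => he (mem_powersetCard.mpr ⟨subset_univ _, hc⟩)
    rw [hcard e this]
    simp
  rw [h3]
  refine sum_congr rfl fun e he => ?_
  have hed := (mem_powersetCard.mp he).2
  simp_rw [mean_U lam hlam mu sg hac hac' d e _ (psi e) (hψ e)]
  have h4 : ∀ ρ, (H540.wt d e ρ).re * (∑ v, W lam v * (psi e v *
      ∏ r, (if r = 0 then H742.gr lam sg (e.filter fun j => ρ j = r) v
        else H742.gr lam mu (e.filter fun j => ρ j = r) v)))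
      = ∑ v, W lam v * (psi e v * (H540.wt d e ρ *
        ∏ r, (if r = 0 then
          (H742.gr lam sg (e.filter fun j => ρ j = r) v : ℂ)
        else (H742.gr lam mu (e.filter fun j => ρ j = r) v : ℂ))).re) := by
    intro ρ
    have h5 : ∀ v : (∀ i, V i), (∏ r, (if r = 0 then
          (H742.gr lam sg (e.filter fun j => ρ j = r) v : ℂ)
        else (H742.gr lam mu (e.filter fun j => ρ j = r) v : ℂ)))
        = ((∏ r, (if r = 0 then H742.gr lam sg (e.filter fun j => ρ j = r) v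
        else H742.gr lam mu (e.filter fun j => ρ j = r) v) : ℝ) : ℂ) := by
      intro v
      push_cast
      refine prod_congr rfl fun r _ => ?_
      split_ifs <;> rfl
    simp_rw [h5, Complex.re_mul_ofReal]
    rw [mul_sum]
    exact sum_congr rfl fun v _ => by ring
  simp_rw [h4]
  rw [sum_comm]
  refine sum_congr rfl fun v _ => ?_
  rw [← mul_sum, ← mul_sum, ← Complex.re_sum]
  by_cases hW : W lam v = 0
  · rw [hW, zero_mul, zero_mul]
  · rw [rot_pointU lam mu sg hmu d k hk e hed.le v hW, Complex.ofReal_re]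

/-! ### the theorem -/

/-- the kernels tested -/
noncomputable def psiU (t : ι → ℝ) (k : Finset ι → (∀ i, V i) → ℝ) (d : ℕ)
    (e : Finset ι) (x : ∀ i, V i) : ℝ :=
  if e.card = d then (∏ j ∈ e, t j) * k e x else 0

theorem nrm_psiU {lam : ∀ i, V i → ℝ} {t : ι → ℝ} (ht : ∀ i, 0 < t i)
    (k : Finset ι → (∀ i, V i) → ℝ) (d : ℕ) :
    nrm lam t (psiU t k d) = unitQ lam t k d := by
  unfold nrm unitQ
  rw [Finset.sum_filter]
  refine Finset.sum_congr rfl fun e _ => ?_
  by_cases h : e.card = d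
  · rw [if_pos h]
    have h1 : ∀ x, W lam x * psiU t k d e x ^ 2 =
        (∏ j ∈ e, t j) ^ 2 * (W lam x * k e x ^ 2) := by
      intro x
      unfold psiU
      rw [if_pos h]
      ring
    rw [Finset.sum_congr rfl fun x _ => h1 x, ← Finset.mul_sum]
    have h2 : ∏ j ∈ e, t j ≠ 0 := Finset.prod_ne_zero_iff.2 fun j _ => (ht j).ne'
    field_simp
  · rw [if_neg h]
    have h1 : ∀ x, W lam x * psiU t k d e x ^ 2 = 0 := by
      intro x
      unfold psiU
      rw [if_neg h]
      ring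
    rw [Finset.sum_congr rfl fun x _ => h1 x]
    simp

theorem test_psiU (lam : ∀ i, V i → ℝ) (t : ι → ℝ)
    (k : Finset ι → (∀ i, V i) → ℝ) (d : ℕ) :
    ∑ e, ∑ x, W lam x * (psiU t k d e x * k e x) = unitQ lam t k d := by
  unfold unitQ
  rw [Finset.sum_filter]
  refine Finset.sum_congr rfl fun e _ => ?_
  by_cases h : e.card = d
  · rw [if_pos h, Finset.mul_sum]
    refine Finset.sum_congr rfl fun x _ => ?_
    unfold psiU
    rw [if_pos h]
    ring
  · rw [if_neg h]
    refine Finset.sum_eq_zero fun x _ => ?_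
    unfold psiU
    rw [if_neg h]
    ring

theorem unitQ_nonneg {lam : ∀ i, V i → ℝ} (hl : ∀ i a, 0 ≤ lam i a) {t : ι → ℝ}
    (ht : ∀ i, 0 ≤ t i) (k : Finset ι → (∀ i, V i) → ℝ) (d : ℕ) :
    0 ≤ unitQ lam t k d := by
  refine Finset.sum_nonneg fun e _ => mul_nonneg (Finset.prod_nonneg fun j _ => ht j) ?_
  exact Finset.sum_nonneg fun x _ => mul_nonneg (W_nonneg hl x) (sq_nonneg _)

theorem UE_nonneg {mu sg : (∀ i, V i) → ℝ} (hmu : ∀ x, 0 ≤ mu x) {t : ι → ℝ}
    (ht0 : ∀ i, 0 ≤ t i) (ht1 : ∀ i, t i ≤ 1) : 0 ≤ UE t mu sg :=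
  Finset.sum_nonneg fun R _ => mul_nonneg (bw_nonneg ht0 ht1 R)
    (Finset.sum_nonneg fun x _ => mul_nonneg (hmu x) (sq_nonneg _))

/-- absolute continuity of the marginals of `sg` -/
theorem marg_sg_zero {mu sg : (∀ i, V i) → ℝ} (hmu : ∀ x, 0 ≤ mu x) (hs : AC sg mu)
    {A : Finset ι} {x : ∀ i, V i} (h0 : marg mu A x = 0) : marg sg A x = 0 := by
  unfold marg at h0 ⊢
  have h1 := (Finset.sum_eq_zero_iff_of_nonneg (fun y _ => by
    show 0 ≤ if (∀ i ∈ A, y i = x i) then mu y else 0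
    split_ifs
    · exact hmu y
    · exact le_rfl)).1 h0
  refine Finset.sum_eq_zero fun y hy => ?_
  have h2 := h1 y hy
  split_ifs with h3
  · rw [if_pos h3] at h2
    exact hs y h2
  · rfl

/-- **LEMMA (M)**: one unit -/
theorem unit_row {mu : (∀ i, V i) → ℝ} (hmu : IsLaw mu) {lam : ∀ i, V i → ℝ} {L : ℝ} {D0 : ℕ}
    {t M : ι → ℝ} (hR : Ref lam L) (hI : I1M lam M D0 mu) (hM : ∀ i, 1 ≤ M i) (ht0 : ∀ i, 0 < t i)
    (ht1 : ∀ i, t i ≤ 1) {d : ℕ} (hd : 1 ≤ d) (hD : d ≤ D0)
    (hN : NearOrthM (ι := ι × Fin (d + 1)) (V := fun p => V p.1) (rlam lam (d + 1))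
      (rt t (d + 1)) (rt M (d + 1)) D0 (rep mu (d + 1)))
    {sg : (∀ i, V i) → ℝ} (hs : AC sg mu) {k : Finset ι → (∀ i, V i) → ℝ}
    (hkdep : ∀ C : Finset ι, DependsOn (k C) (C : Set ι)) (hk : IsCumU lam mu sg k) :
    unitQ lam (fun j => t j / M j) k d ≤
      3 * (d.factorial : ℝ) * ((d : ℝ) + 1) ^ d * UE t mu sg := by
  classical
  have hM0 : ∀ i, 0 < M i := fun i => by linarith [hM i]
  have htM : ∀ i, 0 < t i / M i := fun i => div_pos (ht0 i) (hM0 i)
  have hI' := hI.toI1 hR hM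
  have hac : ∀ A x, lw lam A x = 0 → marg mu A x = 0 := fun A x h =>
    I1.ac hmu hI' (hd.trans hD) A x h
  have hac' : ∀ A x, lw lam A x = 0 → marg sg A x = 0 := fun A x h =>
    marg_sg_zero hmu.1 hs (hac A x h)
  have hloc : ∀ e : Finset ι, DependsOn (psiU (fun j => t j / M j) k d e) (e : Set ι) := by
    intro e x y hxy
    unfold psiU
    rw [hkdep e hxy]
  have hcard : ∀ e : Finset ι, e.card ≠ d → psiU (fun j => t j / M j) k d e = 0 := by
    intro e he
    funext x
    unfold psiU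
    rw [if_neg he]
    rfl
  have hfam := isFam_rotT0 mu d (psiU (fun j => t j / M j) k d) hloc
  have hnrm := Vale.Agent.P042.H540.nrm_rotT lam hR.nonneg hR.sum_one (fun j => t j / M j)
    (fun i => (htM i).le) d (psiU (fun j => t j / M j) k d) hloc
  rw [nrm_psiU htM] at hnrm
  have htest := test_unit lam hR.sum_one mu sg hmu.2 hac hac' d k hk
    (psiU (fun j => t j / M j) k d) hloc hcard
  rw [test_psiU] at htest
  have hlawr := isLaw_rep hmu (d + 1)
  have hmain := test_signed (P := rep mu (d + 1)) (s := srep mu sg (0 : Fin (d + 1)))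
    hlawr.1 (AC_srep hs 0) (t := rt t (d + 1)) (fun p => ht0 p.1) (fun p => ht1 p.1) hfam.dep
  rw [htest, UE_srep hmu t 0] at hmain
  obtain ⟨x0⟩ : Nonempty (∀ i, V i) := by
    by_contra hc
    rw [not_nonempty_iff] at hc
    have := hmu.2
    simp at this
  have hAJ := pint_AJ_leM hlawr (hR.rep (d + 1)) (hI.rep hmu (d + 1)) (fun p => hM p.1)
    (fun p => ht0 p.1) (fun p => ht1 p.1) hN (W' := ∅) (fun p => x0 p.1)
    (by rw [Finset.card_empty]; omega) hfam
  have hlw0 : lw (rlam lam (d + 1)) (∅ : Finset (ι × Fin (d + 1))) (fun p => x0 p.1) = 1 := by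
    unfold lw
    simp
  rw [Finset.prod_empty, one_mul, hlw0, one_mul, pint_empty] at hAJ
  set Q := unitQ lam (fun j => t j / M j) k d with hQ
  have hQ0 : 0 ≤ Q := unitQ_nonneg hR.nonneg (fun i => (htM i).le) k d
  have hU0 : 0 ≤ UE t mu sg := UE_nonneg hmu.1 (fun i => (ht0 i).le) ht1
  have hfac : (0 : ℝ) ≤ d.factorial := Nat.cast_nonneg _
  have h1 : nrm (rlam lam (d + 1)) (fun p => rt t (d + 1) p / rt M (d + 1) p)
      (Vale.Agent.P042.H540.rotT d (psiU (fun j => t j / M j) k d)) ≤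
      ((d : ℝ) + 1) ^ d * Q := hnrm
  have h2 : Q ^ 2 ≤ UE t mu sg * (3 * ((d.factorial : ℝ) * (((d : ℝ) + 1) ^ d * Q))) := by
    refine hmain.trans (mul_le_mul_of_nonneg_left (hAJ.trans ?_) hU0)
    exact mul_le_mul_of_nonneg_left (mul_le_mul_of_nonneg_left h1 hfac) (by norm_num)
  by_cases hQz : Q = 0
  · rw [hQz]
    positivity
  have hpos : 0 < Q := lt_of_le_of_ne hQ0 (Ne.symm hQz)
  have h3 : Q * Q ≤ Q * (3 * (d.factorial : ℝ) * ((d : ℝ) + 1) ^ d * UE t mu sg) := by
    calc Q * Q = Q ^ 2 := by ring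
      _ ≤ _ := h2
      _ = _ := by ring
  exact le_of_mul_le_mul_left h3 hpos

/-- (M) from the multi-coordinate entropy inequality, one unit (as `block_rowM`) -/
theorem block_unitM {mu : (∀ i, V i) → ℝ} (hmu : IsLaw mu) {lam : ∀ i, V i → ℝ}
    {L Λ ε κ δ : ℝ} {D0 : ℕ} {t M : ι → ℝ} (hR : Ref lam L) (hI : I1M lam M D0 mu)
    (hM : ∀ i, 1 ≤ M i)
    (ht0 : ∀ i, 0 < t i) (ht1 : ∀ i, t i ≤ 1) (hε : 0 ≤ ε) (hκ : 0 ≤ κ) (hL : 0 ≤ L)
    (hΛ : D0 * (L + Real.log (Fintype.card ι * D0)) + 3 ≤ Λ)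
    (hT : ∀ N, N ≤ D0 → MEIr (ι := ι × Fin N) (V := fun p => V p.1) (rt t N) ε κ δ (rep mu N))
    (hδ : δ ≤ Real.exp (-(3 * Λ))) (hs : 176 * ε * (κ + 3 * Λ) ≤ 1)
    {d : ℕ} (hd : 1 ≤ d) (hD : d + 1 ≤ D0)
    {sg : (∀ i, V i) → ℝ} (hac : AC sg mu) {k : Finset ι → (∀ i, V i) → ℝ}
    (hkdep : ∀ C : Finset ι, DependsOn (k C) (C : Set ι)) (hk : IsCumU lam mu sg k) :
    unitQ lam (fun j => t j / M j) k d ≤
      3 * (d.factorial : ℝ) * ((d : ℝ) + 1) ^ d * UE t mu sg := by
  by_cases hne : Nonempty ι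
  · have hN : NearOrthM (ι := ι × Fin (d + 1)) (V := fun p => V p.1) (rlam lam (d + 1))
        (rt t (d + 1)) (rt M (d + 1)) D0 (rep mu (d + 1)) := by
      refine near_orthM (isLaw_rep hmu (d + 1)) (hR.rep (d + 1))
        (hI.rep hmu (d + 1)) (fun p => hM p.1) (fun p => ht0 p.1) (fun p => ht1 p.1) hε hκ hL ?_
        (hT _ hD) hδ hs
      refine le_trans ?_ hΛ
      have h1 : Real.log (Fintype.card (ι × Fin (d + 1))) ≤ Real.log (Fintype.card ι * D0) := by
        have hc : (0 : ℝ) < Fintype.card ι := by exact_mod_cast Fintype.card_pos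
        rw [Fintype.card_prod, Fintype.card_fin, Nat.cast_mul]
        refine Real.log_le_log (mul_pos hc (by positivity)) ?_
        exact mul_le_mul_of_nonneg_left (by exact_mod_cast hD) hc.le
      have h2 : (0 : ℝ) ≤ D0 := Nat.cast_nonneg _
      have h3 := mul_le_mul_of_nonneg_left (add_le_add_right h1 L) h2
      linarith
    exact unit_row hmu hR hI hM ht0 ht1 hd (by omega) hN hac hkdep hk
  · rw [not_nonempty_iff] at hne
    have h0 : unitQ lam (fun j => t j / M j) k d = 0 := by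
      unfold unitQ
      rw [Finset.sum_filter]
      refine Finset.sum_eq_zero fun e _ => ?_
      rw [if_neg]
      rw [Finset.eq_empty_of_isEmpty e, Finset.card_empty]
      omega
    rw [h0]
    have := UE_nonneg (mu := mu) (sg := sg) hmu.1 (fun i => (ht0 i).le) ht1
    positivity

/-- order zero: `(E root)^2 ≤ E (E[root | x_R])^2` -/
theorem unit_zero {mu : (∀ i, V i) → ℝ} (hmu : IsLaw mu) {lam : ∀ i, V i → ℝ} {L : ℝ}
    {t : ι → ℝ} (hR : Ref lam L) (ht0 : ∀ i, 0 < t i)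
    (ht1 : ∀ i, t i ≤ 1)
    {sg : (∀ i, V i) → ℝ} (hac : AC sg mu) {s : ι → ℝ} {k : Finset ι → (∀ i, V i) → ℝ}
    (hk : IsCumU lam mu sg k) :
    unitQ lam s k 0 ≤ UE t mu sg := by
  have h1 : unitQ lam s k 0 = ∑ x, W lam x * (∑ y, sg y) ^ 2 := by
    unfold unitQ
    have h2 : (univ.filter fun e : Finset ι => e.card = 0) = {∅} := by
      ext e
      simp
    rw [h2, Finset.sum_singleton, Finset.prod_empty, one_mul]
    refine Finset.sum_congr rfl fun x _ => ?_
    by_cases hx : W lam x = 0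
    · rw [hx]
      ring
    · have h3 := hk ∅ x hx
      rw [Finset.powerset_empty, Finset.sum_singleton] at h3
      have h4 : ∀ nu : (∀ i, V i) → ℝ, gr lam nu ∅ x = ∑ y, nu y := by
        intro nu
        unfold gr lw marg
        simp
      rw [Finset.sdiff_self, h4, h4, hmu.2, mul_one] at h3
      rw [h3]
  rw [h1, ← Finset.sum_mul, sum_W hR.sum_one, one_mul]
  have h5 : ∀ R : Finset ι, (∑ y, sg y) ^ 2 ≤ ce2 mu sg R := by
    intro R
    have h6 := sum_proj hmu.1 hac R (G := fun _ => 1) (fun _ _ _ => rfl)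
    simp only [mul_one] at h6
    have h7 := cs_weighted (univ : Finset (∀ i, V i)) (w := mu)
      (f := fun x => marg sg R x / marg mu R x) (g := fun _ => 1) (fun x _ => hmu.1 x)
    simp only [mul_one, one_pow] at h7
    rw [hmu.2, mul_one] at h7
    rw [h6]
    exact h7
  calc (∑ y, sg y) ^ 2 = ∑ R : Finset ι, bw t R * (∑ y, sg y) ^ 2 := by
        rw [← Finset.sum_mul, sum_bw, one_mul]
    _ ≤ _ := Finset.sum_le_sum fun R _ =>
        mul_le_mul_of_nonneg_left (h5 R) (bw_nonneg (fun i => (ht0 i).le) ht1 R)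

end Vale.Agent.P042.H892
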